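import Mathlib

namespace Vale.Agent.Lib.P174

universe u

/-- the free product `G * F_n`, whose elements are the left-hand sides of equations `w = 1` -/
abbrev Eqn (G : Type u) [Group G] (n : ℕ) := Monoid.Coprod G (FreeGroup (Fin n))

/-- the unknown `x_j` as an element of `G * F_n` -/
def X {G : Type u} [Group G] {n : ℕ} (j : Fin n) : Eqn G n := Monoid.Coprod.inr (FreeGroup.of j)

/-- evaluation of `w` in `H` along `φ : G → H` at the tuple `h` -/
def ev {G : Type u} {H : Type u} [Group G] [Group H] {n : ℕ} (φ : G →* H) (h : Fin n → H) :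
    Eqn G n →* H := Monoid.Coprod.lift φ (FreeGroup.lift h)

/-- the system `W` is solvable over `G`: some group `H` contains a copy of `G` and a solution -/
def SolvableOver {G : Type u} [Group G] {m n : ℕ} (W : Fin m → Eqn G n) : Prop :=
  ∃ (H : Type u) (_ : Group H) (φ : G →* H) (h : Fin n → H),
    Function.Injective φ ∧ ∀ i, ev φ h (W i) = 1

/-- the homomorphism `G * F_n → Z^n` killing `G` and sending `x_j` to `e_j` -/
def expHom (G : Type u) [Group G] (n : ℕ) : Eqn G n →* Multiplicative (Fin n → ℤ) :=
  Monoid.Coprod.lift 1 (FreeGroup.lift fun j => Multiplicative.ofAdd (Pi.single j 1))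

/-- the exponent-sum matrix -/
def expMatrix {G : Type u} [Group G] {m n : ℕ} (W : Fin m → Eqn G n) : Matrix (Fin m) (Fin n) ℤ :=
  fun i j => Multiplicative.toAdd (expHom G n (W i)) j

/-- nonsingular: the exponent-sum matrix has rank `m` over `Q` -/
def Nonsingular {G : Type u} [Group G] {m n : ℕ} (W : Fin m → Eqn G n) : Prop :=
  ((expMatrix W).map (Int.cast : ℤ → ℚ)).rank = m

end Vale.Agent.Lib.P174
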