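import Mathlib

namespace Vale.Agent.Lib.P174

universe u

lemma exists_rightInv {m n : ℕ} (A : Matrix (Fin m) (Fin n) ℚ) (h : A.rank = m) :
    ∃ B : Matrix (Fin n) (Fin m) ℚ, A * B = 1 := by
  rw [← Matrix.mulVec_surjective_iff_exists_right_inverse]
  have h1 : LinearMap.range A.mulVecLin = ⊤ := by
    apply Submodule.eq_top_of_finrank_eq
    rw [Module.finrank_fin_fun]
    exact h
  intro v
  have h2 : v ∈ LinearMap.range A.mulVecLin := by rw [h1]; trivial
  obtain ⟨x, hx⟩ := h2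
  exact ⟨x, by simpa using hx⟩

variable {V : Type u} [AddCommGroup V] [Module ℚ V]

/-- the augmentation of the group algebra `ℚ[V]` -/
noncomputable def aug (V : Type u) [AddCommGroup V] : AddMonoidAlgebra ℚ V →ₐ[ℚ] ℚ :=
  AddMonoidAlgebra.lift ℚ ℚ V (1 : Multiplicative V →* ℚ)

@[simp] lemma aug_single (p : V) (c : ℚ) : aug V (AddMonoidAlgebra.single p c) = c := by
  simp [aug, AddMonoidAlgebra.lift_single]

instance : IsDomain (AddMonoidAlgebra ℚ V) := NoZeroDivisors.to_isDomain _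

lemma vecMul_inj {m n : ℕ} (A' : Matrix (Fin m) (Fin n) (AddMonoidAlgebra ℚ V))
    (B : Matrix (Fin n) (Fin m) ℚ)
    (hB : (A'.map (aug V)) * B = 1) (r : Fin m → AddMonoidAlgebra ℚ V)
    (hr : Matrix.vecMul r A' = 0) : r = 0 := by
  set C : Matrix (Fin m) (Fin m) (AddMonoidAlgebra ℚ V) :=
    A' * B.map (algebraMap ℚ (AddMonoidAlgebra ℚ V)) with hC
  have h1 : (aug V).toRingHom.mapMatrix C = 1 := by
    rw [hC, RingHom.mapMatrix_apply, Matrix.map_mul, ← hB]
    congr 1
    ext i j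
    simp
  have h2 : C.det ≠ 0 := by
    intro h0
    have := RingHom.map_det (aug V).toRingHom C
    rw [h1, h0] at this
    simp at this
  apply Matrix.eq_zero_of_vecMul_eq_zero h2
  rw [hC, ← Matrix.vecMul_vecMul, hr, Matrix.zero_vecMul]

end Vale.Agent.Lib.P174
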