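import Mathlib

namespace Vale.Agent.Lib.P174

universe u

/-- unrestricted wreath product of `Y` by the additive group `P` (functions `P → Y` and a shift) -/
@[ext] structure Wr (P : Type u) (Y : Type u) where
  fn : P → Y
  sh : P

namespace Wr

variable {P : Type u} {Y Y' : Type u} [AddCommGroup P] [Group Y] [Group Y']

instance : Mul (Wr P Y) := ⟨fun a b => ⟨fun p => a.fn p * b.fn (p + a.sh), a.sh + b.sh⟩⟩
instance : One (Wr P Y) := ⟨⟨fun _ => 1, 0⟩⟩
instance : Inv (Wr P Y) := ⟨fun a => ⟨fun p => (a.fn (p - a.sh))⁻¹, -a.sh⟩⟩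

@[simp] lemma mul_fn (a b : Wr P Y) (p : P) : (a * b).fn p = a.fn p * b.fn (p + a.sh) := rfl
@[simp] lemma mul_sh (a b : Wr P Y) : (a * b).sh = a.sh + b.sh := rfl
@[simp] lemma one_fn (p : P) : (1 : Wr P Y).fn p = 1 := rfl
@[simp] lemma one_sh : (1 : Wr P Y).sh = 0 := rfl
@[simp] lemma inv_fn (a : Wr P Y) (p : P) : (a⁻¹).fn p = (a.fn (p - a.sh))⁻¹ := rfl
@[simp] lemma inv_sh (a : Wr P Y) : (a⁻¹).sh = -a.sh := rfl

instance : Group (Wr P Y) :=
  Group.ofLeftAxioms
    (by
      intro a b c
      ext p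
      · simp [mul_assoc, add_assoc]
      · simp [add_assoc])
    (by
      intro a
      ext p
      · simp
      · simp)
    (by
      intro a
      ext p
      · simp [sub_eq_add_neg]
      · simp)

/-- functoriality in the base group -/
def map (f : Y →* Y') : Wr P Y →* Wr P Y' where
  toFun a := ⟨fun p => f (a.fn p), a.sh⟩
  map_one' := by
    ext p
    · simp
    · simp
  map_mul' a b := by
    ext p
    · simp
    · simp

@[simp] lemma map_fn (f : Y →* Y') (a : Wr P Y) (p : P) : (map f a).fn p = f (a.fn p) := rfl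
@[simp] lemma map_sh (f : Y →* Y') (a : Wr P Y) : (map f a).sh = a.sh := rfl

/-- the shift as a homomorphism -/
def shHom : Wr P Y →* Multiplicative P where
  toFun a := Multiplicative.ofAdd a.sh
  map_one' := by simp
  map_mul' a b := by simp

@[simp] lemma shHom_apply (a : Wr P Y) : shHom a = Multiplicative.ofAdd a.sh := rfl

end Wr

end Vale.Agent.Lib.P174
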