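import Vale.Agent.Lib.P174.Defs
import Vale.Agent.Lib.P174.ExtWr
import Vale.Agent.Lib.P174.ExtLin

namespace Vale.Agent.Lib.P174

universe u

open Multiplicative

variable {G : Type u} [Group G] {V : Type u} [AddCommGroup V] [Module ℚ V]
  (π : G →* Multiplicative V)

/-- the homomorphism `G * F_n → V` extending `π` by `x_j ↦ q_j` -/
def theta {n : ℕ} (q : Fin n → V) : Eqn G n →* Multiplicative V :=
  Monoid.Coprod.lift π (FreeGroup.lift fun j => ofAdd (q j))

/-- the linear form `z ↦ ∑ z_j q_j` -/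
def linHom {n : ℕ} (q : Fin n → V) : Multiplicative (Fin n → ℤ) →* Multiplicative V :=
  AddMonoidHom.toMultiplicative
    { toFun := fun z => ∑ j, z j • q j
      map_zero' := by simp
      map_add' := by intro a b; simp [add_smul, Finset.sum_add_distrib] }

lemma linHom_apply {n : ℕ} (q : Fin n → V) (z : Multiplicative (Fin n → ℤ)) :
    toAdd (linHom q z) = ∑ j, (toAdd z) j • q j := rfl

lemma theta_eq {n : ℕ} (q : Fin n → V) :
    theta π q = theta π 0 * (linHom q).comp (expHom G n) := by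
  apply Monoid.Coprod.hom_ext
  · ext g
    simp [theta, expHom]
  · ext j
    apply toAdd.injective
    simp [theta, expHom, linHom_apply, Pi.single_apply]

lemma exists_q {m n : ℕ} (W : Fin m → Eqn G n) (B : Matrix (Fin n) (Fin m) ℚ)
    (hB : ((expMatrix W).map (Int.cast : ℤ → ℚ)) * B = 1) :
    ∃ q : Fin n → V, ∀ i, theta π q (W i) = 1 := by
  set c : Fin m → V := fun i => toAdd (theta π 0 (W i)) with hc
  refine ⟨fun j => - ∑ k, B j k • c k, fun i => ?_⟩
  rw [theta_eq]
  apply toAdd.injective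
  rw [MonoidHom.mul_apply, toAdd_mul, MonoidHom.comp_apply, linHom_apply, toAdd_one]
  have h1 : ∀ j, (toAdd (expHom G n (W i))) j • (- ∑ k, B j k • c k)
      = - ∑ k, (((expMatrix W).map (Int.cast : ℤ → ℚ)) i j * B j k) • c k := by
    intro j
    rw [smul_neg, Finset.smul_sum]
    congr 1
    apply Finset.sum_congr rfl
    intro k _
    rw [mul_smul, Matrix.map_apply, Int.cast_smul_eq_zsmul]
    rfl
  rw [Finset.sum_congr rfl (fun j _ => h1 j), Finset.sum_neg_distrib, Finset.sum_comm]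
  have h2 : ∀ k, ∑ j, (((expMatrix W).map (Int.cast : ℤ → ℚ)) i j * B j k) • c k
      = ((1 : Matrix (Fin m) (Fin m) ℚ) i k) • c k := by
    intro k
    rw [← Finset.sum_smul, ← hB, Matrix.mul_apply]
  rw [Finset.sum_congr rfl (fun k _ => h2 k)]
  simp [Matrix.one_apply, hc]

lemma exists_sigma : ∃ σ : V → G, ∀ (p : V) (g : G),
    π (σ (p + toAdd (π g))) = π (σ p) * π g := by
  classical
  have hd : ∀ p : Multiplicative V,
      (Quotient.out (QuotientGroup.mk p : Multiplicative V ⧸ π.range))⁻¹ * p ∈ π.range :=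
    fun p => QuotientGroup.eq.1 (QuotientGroup.out_eq' _)
  refine ⟨fun p => Classical.choose (hd (ofAdd p)), fun p g => ?_⟩
  rw [Classical.choose_spec (hd (ofAdd p)), Classical.choose_spec (hd (ofAdd (p + toAdd (π g))))]
  have h1 : (ofAdd (p + toAdd (π g)) : Multiplicative V) = ofAdd p * π g := rfl
  rw [h1, QuotientGroup.mk_mul_of_mem _ (MonoidHom.mem_range.2 ⟨g, rfl⟩), mul_assoc]

variable {π}

/-- the Kaloujnine-Krasner embedding of `G` in the wreath product of `ker π` by `V` -/
def KK (σ : V → G) (hσ : ∀ (p : V) (g : G), π (σ (p + toAdd (π g))) = π (σ p) * π g) :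
    G →* Wr V π.ker :=
  MonoidHom.mk' (fun g => ⟨fun p => ⟨σ p * g * (σ (p + toAdd (π g)))⁻¹, by
      rw [MonoidHom.mem_ker, map_mul, map_mul, map_inv, hσ]; simp⟩, toAdd (π g)⟩) (by
    intro g h
    ext p
    · simp only [Wr.mul_fn, Subgroup.coe_mul, map_mul, toAdd_mul, add_assoc]
      group
    · simp)

lemma KK_fn (σ : V → G) (hσ) (g : G) (p : V) :
    (((KK σ hσ g).fn p : π.ker) : G) = σ p * g * (σ (p + toAdd (π g)))⁻¹ := rfl

lemma KK_sh (σ : V → G) (hσ) (g : G) : (KK (π := π) σ hσ g).sh = toAdd (π g) := rfl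

lemma KK_map_injective (σ : V → G) (hσ) {M : Type u} [Group M] (f : π.ker →* M)
    (hf : Function.Injective f) : Function.Injective ((Wr.map f).comp (KK σ hσ)) := by
  rw [injective_iff_map_eq_one]
  intro g hg
  have h1 : toAdd (π g) = 0 := by
    have := congrArg Wr.sh hg
    simpa [KK_sh] using this
  have h2 : f ((KK σ hσ g).fn 0) = 1 := by
    have := congrFun (congrArg Wr.fn hg) 0
    simpa using this
  have h3 : (KK σ hσ g).fn 0 = 1 := hf (by rw [h2, map_one])
  have h4 := congrArg (Subtype.val) h3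
  rw [KK_fn, h1, add_zero] at h4
  have h5 : σ 0 * g * (σ 0)⁻¹ = 1 := h4
  have : g = (σ 0)⁻¹ * (σ 0 * g * (σ 0)⁻¹) * σ 0 := by group
  rw [this, h5]; group

end Vale.Agent.Lib.P174
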