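import Vale.Agent.Lib.P174.ExtA

set_option linter.unusedSectionVars false

namespace Vale.Agent.Lib.P174

universe u

open Multiplicative

variable {G : Type u} [Group G] {V : Type u} [AddCommGroup V] [Module ℚ V]
  {π : G →* Multiplicative V}

/-- the free product of `ker π` with the free group on the unknowns `x_{j,p}` -/
abbrev LL (π : G →* Multiplicative V) (n : ℕ) := Monoid.Coprod π.ker (FreeGroup (Fin n × V))

/-- the lift of the system to the wreath product -/
def Phi (σ : V → G) (hσ : ∀ (p : V) (g : G), π (σ (p + toAdd (π g))) = π (σ p) * π g)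
    {n : ℕ} (q : Fin n → V) : Eqn G n →* Wr V (LL π n) :=
  Monoid.Coprod.lift ((Wr.map Monoid.Coprod.inl).comp (KK σ hσ))
    (FreeGroup.lift fun j => ⟨fun p => Monoid.Coprod.inr (FreeGroup.of (j, p)), q j⟩)

lemma sh_Phi (σ : V → G) (hσ) {n : ℕ} (q : Fin n → V) :
    (Wr.shHom).comp (Phi (π := π) σ hσ q) = theta π q := by
  apply Monoid.Coprod.hom_ext
  · ext g
    simp [Phi, theta, KK_sh]
  · ext j
    simp [Phi, theta]

/-- exponents of the unknowns, packed in the group algebra -/
noncomputable def ex (π : G →* Multiplicative V) (n : ℕ) :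
    LL π n →* Multiplicative (Fin n → AddMonoidAlgebra ℚ V) :=
  Monoid.Coprod.lift 1
    (FreeGroup.lift fun x => ofAdd (Pi.single x.1 (AddMonoidAlgebra.single x.2 1)))

/-- additive version -/
noncomputable def ee {n : ℕ} (l : LL π n) : Fin n → AddMonoidAlgebra ℚ V := toAdd (ex π n l)

lemma ee_mul {n : ℕ} (a b : LL π n) : ee (a * b) = ee a + ee b := by
  simp [ee]

lemma ee_one {n : ℕ} : ee (1 : LL π n) = 0 := by
  simp [ee]

lemma ee_inv {n : ℕ} (a : LL π n) : ee a⁻¹ = - ee a := by
  simp [ee]

lemma ee_inl {n : ℕ} (a : π.ker) : ee (Monoid.Coprod.inl a : LL π n) = 0 := by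
  simp [ee, ex]

lemma ee_of {n : ℕ} (x : Fin n × V) :
    ee (Monoid.Coprod.inr (FreeGroup.of x) : LL π n)
      = Pi.single x.1 (AddMonoidAlgebra.single x.2 1) := by
  simp [ee, ex]

/-- equivariance and augmentation of the exponents -/
def Good {n : ℕ} (a : Wr V (LL π n)) (z : Fin n → ℤ) : Prop :=
  (∀ p j, ee (a.fn p) j = AddMonoidAlgebra.single p 1 * ee (a.fn 0) j) ∧
    ∀ j, aug V (ee (a.fn 0) j) = (z j : ℚ)

lemma Good.one {n : ℕ} : Good (1 : Wr V (LL π n)) 0 := by
  constructor
  · intro p j; simp [ee_one]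
  · intro j; simp [ee_one]

lemma Good.mul {n : ℕ} {a b : Wr V (LL π n)} {z z' : Fin n → ℤ} (ha : Good a z) (hb : Good b z') :
    Good (a * b) (z + z') := by
  constructor
  · intro p j
    simp only [Wr.mul_fn, ee_mul, Pi.add_apply]
    rw [ha.1 p j, hb.1 (p + a.sh) j, hb.1 (0 + a.sh) j, mul_add, ← mul_assoc,
      AddMonoidAlgebra.single_mul_single]
    simp
  · intro j
    simp only [Wr.mul_fn, ee_mul, Pi.add_apply, map_add]
    rw [hb.1 (0 + a.sh) j, map_mul, ha.2 j, hb.2 j]
    simp

lemma Good.inv {n : ℕ} {a : Wr V (LL π n)} {z : Fin n → ℤ} (ha : Good a z) :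
    Good a⁻¹ (-z) := by
  constructor
  · intro p j
    simp only [Wr.inv_fn, ee_inv, Pi.neg_apply]
    rw [ha.1 (p - a.sh) j, ha.1 (0 - a.sh) j, mul_neg, ← mul_assoc,
      AddMonoidAlgebra.single_mul_single]
    simp [sub_eq_add_neg]
  · intro j
    simp only [Wr.inv_fn, ee_inv, Pi.neg_apply, map_neg]
    rw [ha.1 (0 - a.sh) j, map_mul, ha.2 j]
    simp

lemma good_Phi (σ : V → G) (hσ) {n : ℕ} (q : Fin n → V) (w : Eqn G n) :
    Good (Phi (π := π) σ hσ q w) (toAdd (expHom G n w)) := by
  induction w using Monoid.Coprod.induction_on with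
  | inl g =>
    constructor
    · intro p j
      simp [Phi, ee_inl]
    · intro j
      simp [Phi, ee_inl, expHom]
  | inr z =>
    induction z using FreeGroup.induction_on with
    | C1 => simpa using Good.one
    | of j0 =>
      constructor
      · intro p j
        simp only [Phi, Monoid.Coprod.lift_apply_inr, FreeGroup.lift_apply_of, ee_of]
        by_cases h : j = j0
        · subst h
          simp [AddMonoidAlgebra.single_mul_single]
        · simp [Pi.single_apply, h]
      · intro j
        simp only [Phi, Monoid.Coprod.lift_apply_inr, FreeGroup.lift_apply_of, ee_of, expHom]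
        by_cases h : j = j0
        · subst h
          simp
        · simp [Pi.single_apply, h]
    | inv_of j0 ih =>
      have := ih.inv
      simpa using this
    | mul x y hx hy =>
      have := hx.mul hy
      simpa using this
  | mul x y hx hy =>
    have := hx.mul hy
    simpa using this

end Vale.Agent.Lib.P174
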