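import Vale.Agent.Lib.P174.ExtB

set_option linter.unusedSectionVars false

namespace Vale.Agent.Lib.P174

universe u

open Multiplicative

variable {G : Type u} [Group G] {V : Type u} [AddCommGroup V] [Module ℚ V]
  {π : G →* Multiplicative V}

/-- the infinite system over `ker π` -/
def EE (σ : V → G) (hσ : ∀ (p : V) (g : G), π (σ (p + toAdd (π g))) = π (σ p) * π g)
    {m n : ℕ} (q : Fin n → V) (W : Fin m → Eqn G n) (s : Fin m × V) : LL π n :=
  (Phi σ hσ q (W s.1)).fn s.2

lemma ind (σ : V → G) (hσ) {m n : ℕ} (q : Fin n → V) (W : Fin m → Eqn G n)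
    (B : Matrix (Fin n) (Fin m) ℚ)
    (hB : ((expMatrix W).map (Int.cast : ℤ → ℚ)) * B = 1)
    (S : Finset (Fin m × V)) (c : Fin m × V → ℚ)
    (h : ∀ j p, ∑ s ∈ S, c s * (ee (EE (π := π) σ hσ q W s) j).coeff p = 0) :
    ∀ s ∈ S, c s = 0 := by
  classical
  set A' : Matrix (Fin m) (Fin n) (AddMonoidAlgebra ℚ V) :=
    fun i j => ee (EE σ hσ q W (i, 0)) j with hA'
  have hE : ∀ s j, ee (EE σ hσ q W s) j = AddMonoidAlgebra.single s.2 1 * A' s.1 j :=
    fun s j => (good_Phi σ hσ q (W s.1)).1 s.2 j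
  have haug : A'.map (aug V) = (expMatrix W).map (Int.cast : ℤ → ℚ) := by
    ext i j
    exact (good_Phi σ hσ q (W i)).2 j
  set r : Fin m → AddMonoidAlgebra ℚ V :=
    fun i => ∑ s ∈ S, if s.1 = i then AddMonoidAlgebra.single s.2 (c s) else 0 with hr
  have h1 : Matrix.vecMul r A' = 0 := by
    funext j
    have e1 : Matrix.vecMul r A' j = ∑ s ∈ S, c s • ee (EE σ hσ q W s) j := by
      simp only [Matrix.vecMul, dotProduct, hr, Finset.sum_mul, ite_mul, zero_mul]
      rw [Finset.sum_comm]
      apply Finset.sum_congr rfl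
      intro s _
      rw [Finset.sum_ite_eq, if_pos (Finset.mem_univ _), hE, ← smul_mul_assoc,
        AddMonoidAlgebra.smul_single, smul_eq_mul, mul_one]
    rw [e1]
    apply AddMonoidAlgebra.ext
    ext p
    rw [AddMonoidAlgebra.coeff_sum, Finsupp.finsetSum_apply]
    simpa [AddMonoidAlgebra.coeff_smul] using h j p
  have h2 : r = 0 := vecMul_inj A' B (by rw [haug]; exact hB) r h1
  intro s0 hs0
  have h3 : (r s0.1).coeff s0.2 = c s0 := by
    simp only [hr]
    rw [AddMonoidAlgebra.coeff_sum, Finsupp.finsetSum_apply]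
    have : ∀ s ∈ S, ((if s.1 = s0.1 then AddMonoidAlgebra.single s.2 (c s) else 0 :
        AddMonoidAlgebra ℚ V).coeff) s0.2 = if s = s0 then c s else 0 := by
      intro s _
      by_cases ha : s.1 = s0.1
      · by_cases hb : s.2 = s0.2
        · have : s = s0 := Prod.ext ha hb
          subst this
          simp [AddMonoidAlgebra.coeff_single]
        · have : s ≠ s0 := fun e => hb (by rw [e])
          simp [ha, this, AddMonoidAlgebra.coeff_single, Finsupp.single_apply, hb]
      · have : s ≠ s0 := fun e => ha (by rw [e])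
        simp [ha, this]
    rw [Finset.sum_congr rfl this, Finset.sum_ite_eq', if_pos hs0]
  rw [h2] at h3
  simpa using h3.symm

/-- membership in a normal closure is witnessed by finitely many generators -/
lemma mem_normalClosure_finite {L : Type u} [Group L] {ι : Type u} (E : ι → L) {x : L}
    (hx : x ∈ Subgroup.normalClosure (Set.range E)) :
    ∃ S : Finset ι, x ∈ Subgroup.normalClosure (E '' (S : Set ι)) := by
  classical
  unfold Subgroup.normalClosure at hx
  induction hx using Subgroup.closure_induction with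
  | mem y hy =>
    obtain ⟨a, ⟨i, rfl⟩, hc⟩ := Group.mem_conjugatesOfSet_iff.1 hy
    refine ⟨{i}, ?_⟩
    apply Subgroup.conjugatesOfSet_subset_normalClosure
    exact Group.mem_conjugatesOfSet_iff.2 ⟨E i, ⟨i, by simp, rfl⟩, hc⟩
  | one => exact ⟨∅, Subgroup.one_mem _⟩
  | mul y z _ _ hy hz =>
    obtain ⟨S1, h1⟩ := hy
    obtain ⟨S2, h2⟩ := hz
    refine ⟨S1 ∪ S2, Subgroup.mul_mem _ ?_ ?_⟩
    · exact Subgroup.normalClosure_mono (Set.image_mono (by simp)) h1
    · exact Subgroup.normalClosure_mono (Set.image_mono (by simp)) h2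
  | inv y _ hy =>
    obtain ⟨S1, h1⟩ := hy
    exact ⟨S1, Subgroup.inv_mem _ h1⟩

end Vale.Agent.Lib.P174
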