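import Vale.Agent.Lib.P174.ExtC

set_option linter.unusedSectionVars false

namespace Vale.Agent.Lib.P174

universe u

open Multiplicative

variable {G : Type u} [Group G] {V : Type u} [AddCommGroup V] [Module ℚ V]
  {π : G →* Multiplicative V}

lemma LL_ext {A : Type} [AddCommGroup A] {n : ℕ} (f1 f2 : LL π n → A)
    (h1 : ∀ x y, f1 (x * y) = f1 x + f1 y) (h2 : ∀ x y, f2 (x * y) = f2 x + f2 y)
    (hinl : ∀ a, f1 (Monoid.Coprod.inl a) = f2 (Monoid.Coprod.inl a))
    (hof : ∀ x, f1 (Monoid.Coprod.inr (FreeGroup.of x)) = f2 (Monoid.Coprod.inr (FreeGroup.of x)))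
    (l : LL π n) : f1 l = f2 l := by
  let F1 : LL π n →* Multiplicative A :=
    MonoidHom.mk' (fun l => ofAdd (f1 l)) (by intro x y; simp [h1])
  let F2 : LL π n →* Multiplicative A :=
    MonoidHom.mk' (fun l => ofAdd (f2 l)) (by intro x y; simp [h2])
  have h : F1 = F2 := by
    apply Monoid.Coprod.hom_ext
    · ext a; exact congrArg ofAdd (hinl a)
    · ext x; exact congrArg ofAdd (hof x)
  exact ofAdd.injective (DFunLike.congr_fun h l)

lemma single_coeff {n : ℕ} (x y : Fin n × V) [Decidable (x = y)] :
    ((Pi.single x.1 (AddMonoidAlgebra.single x.2 (1 : ℚ)) :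
      Fin n → AddMonoidAlgebra ℚ V) y.1).coeff y.2 = if x = y then 1 else 0 := by
  classical
  by_cases ha : y.1 = x.1
  · by_cases hb : x.2 = y.2
    · have : x = y := Prod.ext ha.symm hb
      subst this
      simp [AddMonoidAlgebra.coeff_single]
    · have : x ≠ y := fun e => hb (by rw [e])
      rw [if_neg this, ha, Pi.single_eq_same, AddMonoidAlgebra.coeff_single,
        Finsupp.single_apply, if_neg hb]
  · have : x ≠ y := fun e => ha (by rw [e])
    rw [if_neg this, Pi.single_eq_of_ne ha]
    simp

lemma finite_sub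
    (hN : ∀ (m n : ℕ) (W : Fin m → Eqn π.ker n), Nonsingular W → SolvableOver W)
    (σ : V → G) (hσ) {m n : ℕ} (q : Fin n → V) (W : Fin m → Eqn G n)
    (B : Matrix (Fin n) (Fin m) ℚ)
    (hB : ((expMatrix W).map (Int.cast : ℤ → ℚ)) * B = 1)
    (S : Finset (Fin m × V)) :
    ∃ (H' : Type u) (_ : Group H') (Ψ : LL π n →* H'),
      (∀ s ∈ S, Ψ (EE σ hσ q W s) = 1) ∧ Function.Injective (Ψ.comp Monoid.Coprod.inl) := by
  classical
  set E := EE (π := π) σ hσ q W with hEdef
  set T : Finset (Fin n × V) := S.biUnion fun s => Finset.univ.biUnion fun j =>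
    ((ee (E s) j).coeff.support).image fun p => (j, p) with hTdef
  have hT : ∀ s ∈ S, ∀ j p, (j, p) ∉ T → (ee (E s) j).coeff p = 0 := by
    intro s hs j p hjp
    by_contra hne
    apply hjp
    simp only [hTdef, Finset.mem_biUnion, Finset.mem_image]
    exact ⟨s, hs, j, Finset.mem_univ _, p, Finsupp.mem_support_iff.2 hne, rfl⟩
  let eS := S.equivFin
  let eT := T.equivFin
  let ρ : LL π n →* Eqn π.ker T.card :=
    Monoid.Coprod.lift Monoid.Coprod.inl (Monoid.Coprod.inr.comp
      (FreeGroup.lift fun x => if h : x ∈ T then FreeGroup.of (eT ⟨x, h⟩) else 1))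
  let W' : Fin S.card → Eqn π.ker T.card := fun k => ρ (E (eS.symm k).1)
  have ha : ∀ (t : Fin T.card) (l : LL π n),
      ((toAdd (expHom π.ker T.card (ρ l)) t : ℤ) : ℚ)
        = (ee l (eT.symm t).1.1).coeff (eT.symm t).1.2 := by
    intro t
    apply LL_ext
    · intro x y; simp
    · intro x y; simp [ee_mul, AddMonoidAlgebra.coeff_add]
    · intro a; simp [ρ, expHom, ee_inl]
    · intro x
      rw [ee_of, single_coeff]
      by_cases hx : x ∈ T
      · by_cases hxt : eT ⟨x, hx⟩ = t
        · have : x = (eT.symm t).1 := by rw [← hxt]; simp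
          rw [if_pos this]
          simp [ρ, expHom, hx, hxt]
        · have : x ≠ (eT.symm t).1 := by
            intro e
            apply hxt
            have : (⟨x, hx⟩ : T) = eT.symm t := Subtype.ext e
            rw [this]; simp
          rw [if_neg this]
          simp [ρ, expHom, hx, Pi.single_apply, Ne.symm hxt]
      · have : x ≠ (eT.symm t).1 := by
          intro e
          exact hx (e ▸ (eT.symm t).2)
        rw [if_neg this]
        simp [ρ, expHom, hx]
  have hns : Nonsingular W' := by
    unfold Nonsingular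
    have hli : LinearIndependent ℚ ((expMatrix W').map (Int.cast : ℤ → ℚ)).row := by
      rw [Fintype.linearIndependent_iff]
      intro c hc k0
      let c' : Fin m × V → ℚ := fun s => if h : s ∈ S then c (eS ⟨s, h⟩) else 0
      have hc' : ∀ k, c' (eS.symm k).1 = c k := by
        intro k
        simp [c']
      have key : ∀ j p, ∑ s ∈ S, c' s * (ee (E s) j).coeff p = 0 := by
        intro j p
        by_cases hjp : (j, p) ∈ T
        · have h4 := congrFun hc (eT ⟨(j, p), hjp⟩)
          simp only [Finset.sum_apply, Pi.smul_apply, Matrix.row, Matrix.map_apply, smul_eq_mul,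
            Pi.zero_apply] at h4
          rw [← Finset.sum_coe_sort S, ← eS.symm.sum_comp, ← h4]
          apply Finset.sum_congr rfl
          intro k _
          have h6 := ha (eT ⟨(j, p), hjp⟩) (E (eS.symm k).1)
          simp only [Equiv.symm_apply_apply] at h6
          rw [hc', ← h6]
          rfl
        · apply Finset.sum_eq_zero
          intro s hs
          rw [hT s hs j p hjp, mul_zero]
      have := ind σ hσ q W B hB S c' key (eS.symm k0).1 (eS.symm k0).2
      rw [hc'] at this
      exact this
    rw [hli.rank_matrix, Fintype.card_fin]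
  obtain ⟨H', iH, ψ, h', hinj, hsol⟩ := hN _ _ W' hns
  refine ⟨H', iH, (ev ψ h').comp ρ, ?_, ?_⟩
  · intro s hs
    have := hsol (eS ⟨s, hs⟩)
    simpa [W'] using this
  · have : ((ev ψ h').comp ρ).comp Monoid.Coprod.inl = ψ := by
      ext a
      simp [ρ, ev]
    rw [this]
    exact hinj

end Vale.Agent.Lib.P174
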