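import Vale.Agent.Lib.P174.ExtD

set_option linter.unusedSectionVars false

namespace Vale.Agent.Lib.P174

universe u

open Multiplicative

variable {G : Type u} [Group G] {V : Type u} [AddCommGroup V] [Module ℚ V]

theorem howie_ext (π : G →* Multiplicative V)
    (hN : ∀ (m n : ℕ) (W : Fin m → Eqn π.ker n), Nonsingular W → SolvableOver W)
    {m n : ℕ} (W : Fin m → Eqn G n) (hW : Nonsingular W) : SolvableOver W := by
  obtain ⟨B, hB⟩ := exists_rightInv _ hW
  obtain ⟨q, hq⟩ := exists_q π W B hB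
  obtain ⟨σ, hσ⟩ := exists_sigma π
  set E := EE (π := π) σ hσ q W with hE
  let K : Subgroup (LL π n) := Subgroup.normalClosure (Set.range E)
  let ρ : LL π n →* LL π n ⧸ K := QuotientGroup.mk' K
  have hinj : Function.Injective (ρ.comp Monoid.Coprod.inl) := by
    rw [injective_iff_map_eq_one]
    intro a ha
    have h1 : (Monoid.Coprod.inl a : LL π n) ∈ K := (QuotientGroup.eq_one_iff _).1 ha
    obtain ⟨S, hS⟩ := mem_normalClosure_finite E h1
    obtain ⟨H', _, Ψ, hk, hi⟩ := finite_sub hN σ hσ q W B hB S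
    have h2 : Subgroup.normalClosure (E '' (S : Set _)) ≤ Ψ.ker := by
      apply Subgroup.normalClosure_le_normal
      rintro _ ⟨s, hs, rfl⟩
      exact hk s hs
    have h3 : Ψ (Monoid.Coprod.inl a) = 1 := h2 hS
    exact hi (by simpa using h3)
  refine ⟨Wr V (LL π n ⧸ K), inferInstance, (Wr.map (ρ.comp Monoid.Coprod.inl)).comp (KK σ hσ),
    fun j => Wr.map ρ (Phi σ hσ q (X j)), KK_map_injective σ hσ _ hinj, ?_⟩
  intro i
  have h4 : ev ((Wr.map (ρ.comp Monoid.Coprod.inl)).comp (KK σ hσ))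
      (fun j => Wr.map ρ (Phi σ hσ q (X j))) = (Wr.map ρ).comp (Phi σ hσ q) := by
    apply Monoid.Coprod.hom_ext
    · ext g
      · simp [ev, Phi]
      · simp [ev, Phi]
    · ext j
      · simp [ev, X]
      · simp [ev, X]
  rw [h4]
  ext p
  · show ρ ((Phi σ hσ q (W i)).fn p) = 1
    exact (QuotientGroup.eq_one_iff _).2 (Subgroup.subset_normalClosure ⟨(i, p), rfl⟩)
  · have h5 := DFunLike.congr_fun (sh_Phi (π := π) σ hσ q) (W i)
    rw [hq i] at h5
    have h6 : (Phi σ hσ q (W i)).sh = 0 := by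
      have := congrArg toAdd h5
      simpa using this
    simpa using h6

end Vale.Agent.Lib.P174
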