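import Vale.Agent.Lib.P174.ExtE

set_option linter.unusedSectionVars false

namespace Vale.Agent.Lib.P174

universe u

open Multiplicative TensorProduct

theorem howie_ext_quot {G : Type u} [Group G] (N : Subgroup G) [N.Normal]
    (hab : ∀ a b : G, a * b * a⁻¹ * b⁻¹ ∈ N)
    (htf : ∀ (a : G) (k : ℕ), 0 < k → a ^ k ∈ N → a ∈ N)
    (hN : ∀ (m n : ℕ) (W : Fin m → Eqn N n), Nonsingular W → SolvableOver W)
    {m n : ℕ} (W : Fin m → Eqn G n) (hW : Nonsingular W) : SolvableOver W := by
  classical
  let _ : CommGroup (G ⧸ N) :=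
    { (inferInstance : Group (G ⧸ N)) with
      mul_comm := by
        intro x y
        induction x using QuotientGroup.induction_on with
        | H a =>
          induction y using QuotientGroup.induction_on with
          | H b =>
            rw [← QuotientGroup.mk_mul, ← QuotientGroup.mk_mul, QuotientGroup.eq]
            have := hab b⁻¹ a⁻¹
            simpa [mul_assoc] using this }
  let π : G →* Multiplicative (ℚ ⊗[ℤ] Additive (G ⧸ N)) :=
    MonoidHom.mk' (fun g => ofAdd ((1 : ℚ) ⊗ₜ[ℤ] (Additive.ofMul (QuotientGroup.mk g : G ⧸ N))))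
      (by
        intro a b
        rw [QuotientGroup.mk_mul, ofMul_mul, TensorProduct.tmul_add, ofAdd_add])
  have hker : π.ker = N := by
    ext g
    rw [MonoidHom.mem_ker]
    constructor
    · intro hg
      have h1 : (TensorProduct.mk ℤ ℚ (Additive (G ⧸ N)) 1)
          (Additive.ofMul (QuotientGroup.mk g : G ⧸ N)) = 0 := congrArg toAdd hg
      rw [IsLocalizedModule.eq_zero_iff (nonZeroDivisors ℤ)] at h1
      obtain ⟨s, hs⟩ := h1
      have hs0 : (s : ℤ) ≠ 0 := nonZeroDivisors.coe_ne_zero s
      have h2 : (QuotientGroup.mk g : G ⧸ N) ^ (s : ℤ) = 1 := by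
        have : (s : ℤ) • (Additive.ofMul (QuotientGroup.mk g : G ⧸ N)) = 0 := hs
        exact congrArg Additive.toMul this
      have h3 : g ^ (s : ℤ) ∈ N := by
        rw [← QuotientGroup.mk_zpow] at h2
        exact (QuotientGroup.eq_one_iff _).1 h2
      apply htf g (s : ℤ).natAbs (Int.natAbs_pos.2 hs0)
      rcases Int.natAbs_eq (s : ℤ) with h | h
      · rw [h, zpow_natCast] at h3
        simpa using h3
      · rw [h, zpow_neg, zpow_natCast] at h3
        simpa using N.inv_mem h3
    · intro hg
      have h1 : (QuotientGroup.mk g : G ⧸ N) = 1 := (QuotientGroup.eq_one_iff _).2 hg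
      show ofAdd ((1 : ℚ) ⊗ₜ[ℤ] (Additive.ofMul (QuotientGroup.mk g : G ⧸ N))) = 1
      rw [h1]
      simp
  have hN' : ∀ (m n : ℕ) (W : Fin m → Eqn π.ker n), Nonsingular W → SolvableOver W := by
    rw [hker]
    exact hN
  exact howie_ext π hN' W hW

end Vale.Agent.Lib.P174
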