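import Mathlib

namespace Vale.Agent.Lib.P174

universe u

variable {F : Type} [Field F]

lemma exists_rightInvF {m n : ℕ} (A : Matrix (Fin m) (Fin n) F) (h : A.rank = m) :
    ∃ B : Matrix (Fin n) (Fin m) F, A * B = 1 := by
  rw [← Matrix.mulVec_surjective_iff_exists_right_inverse]
  have h1 : LinearMap.range A.mulVecLin = ⊤ := by
    apply Submodule.eq_top_of_finrank_eq
    rw [Module.finrank_fin_fun]
    exact h
  intro v
  have h2 : v ∈ LinearMap.range A.mulVecLin := by rw [h1]; trivial
  obtain ⟨x, hx⟩ := h2
  exact ⟨x, by simpa using hx⟩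

variable {V : Type u} [AddCommGroup V]

/-- the augmentation of the group algebra `F[V]` -/
noncomputable def augF (F : Type) [Field F] (V : Type u) [AddCommGroup V] :
    AddMonoidAlgebra F V →ₐ[F] F :=
  AddMonoidAlgebra.lift F F V (1 : Multiplicative V →* F)

@[simp] lemma augF_single (p : V) (c : F) : augF F V (AddMonoidAlgebra.single p c) = c := by
  simp [augF, AddMonoidAlgebra.lift_single]

/-- elements of augmentation one are not zero divisors -/
def DProp (F : Type) [Field F] (V : Type u) [AddCommGroup V] : Prop :=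
  ∀ x : AddMonoidAlgebra F V, augF F V x = 1 → ∀ y, y * x = 0 → y = 0

lemma vecMul_injF (hD : DProp F V) {m n : ℕ} (A' : Matrix (Fin m) (Fin n) (AddMonoidAlgebra F V))
    (B : Matrix (Fin n) (Fin m) F)
    (hB : (A'.map (augF F V)) * B = 1) (r : Fin m → AddMonoidAlgebra F V)
    (hr : Matrix.vecMul r A' = 0) : r = 0 := by
  set C : Matrix (Fin m) (Fin m) (AddMonoidAlgebra F V) :=
    A' * B.map (algebraMap F (AddMonoidAlgebra F V)) with hC
  have h1 : (augF F V).toRingHom.mapMatrix C = 1 := by
    rw [hC, RingHom.mapMatrix_apply, Matrix.map_mul, ← hB]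
    congr 1
    ext i j
    simp
  have h2 : augF F V C.det = 1 := by
    have := RingHom.map_det (augF F V).toRingHom C
    rw [h1, Matrix.det_one] at this
    exact this
  have h3 : Matrix.vecMul r C = 0 := by
    rw [hC, ← Matrix.vecMul_vecMul, hr, Matrix.zero_vecMul]
  have h4 : Matrix.vecMul r (C * C.adjugate) = 0 := by
    rw [← Matrix.vecMul_vecMul, h3, Matrix.zero_vecMul]
  rw [Matrix.mul_adjugate, Matrix.vecMul_smul, Matrix.vecMul_one] at h4
  funext i
  apply hD _ h2
  have := congrFun h4 i
  simpa [mul_comm] using this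

lemma DProp_of_noZeroDivisors [NoZeroDivisors (AddMonoidAlgebra F V)] : DProp F V := by
  intro x hx y hy
  rcases mul_eq_zero.1 hy with h | h
  · exact h
  · rw [h] at hx
    simp at hx

lemma DProp_zmod (p : ℕ) [Fact p.Prime] [Module (ZMod p) V] : DProp (ZMod p) V := by
  intro x hx y hy
  have : CharP (AddMonoidAlgebra (ZMod p) V) p :=
    charP_of_injective_algebraMap (algebraMap (ZMod p) (AddMonoidAlgebra (ZMod p) V)).injective p
  have key : frobenius (AddMonoidAlgebra (ZMod p) V) p
      = ((algebraMap (ZMod p) (AddMonoidAlgebra (ZMod p) V)).comp (frobenius (ZMod p) p)).comp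
        (augF (ZMod p) V).toRingHom := by
    apply AddMonoidAlgebra.ringHom_ext
    · intro b
      simp [frobenius_def, AddMonoidAlgebra.single_pow]
    · intro a
      have hpa : p • a = 0 := by
        have : ((p : ZMod p)) • a = 0 := by simp
        rwa [Nat.cast_smul_eq_nsmul] at this
      simp [frobenius_def, AddMonoidAlgebra.single_pow, hpa]
  have h1 : x ^ p = 1 := by
    have := DFunLike.congr_fun key x
    rw [AddMonoidAlgebra.one_def]
    simpa [frobenius_def, hx] using this
  have h2 : IsUnit x := IsUnit.of_pow_eq_one h1 (Fact.out : p.Prime).ne_zero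
  exact (h2.mul_left_eq_zero).1 hy

end Vale.Agent.Lib.P174
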