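import Vale.Agent.Lib.P174.GenDefs
import Vale.Agent.Lib.P174.ExtWr
import Vale.Agent.Lib.P174.GenLin

set_option linter.unusedSectionVars false
set_option linter.unusedSimpArgs false

namespace Vale.Agent.Lib.P174.Gen

universe u

open Multiplicative Vale.Agent.Lib.P174

variable {F : Type} [Field F] {G : Type u} [Group G] {V : Type u} [AddCommGroup V]

section A
variable (π : G →* Multiplicative V)
/-- the homomorphism `G * F_n → V` extending `π` by `x_j ↦ q_j` -/
def theta {n : ℕ} (q : Fin n → V) : Eqn G n →* Multiplicative V :=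
  Monoid.Coprod.lift π (FreeGroup.lift fun j => ofAdd (q j))

/-- the linear form `z ↦ ∑ z_j q_j` -/
def linHom {n : ℕ} (q : Fin n → V) : Multiplicative (Fin n → ℤ) →* Multiplicative V :=
  AddMonoidHom.toMultiplicative
    { toFun := fun z => ∑ j, z j • q j
      map_zero' := by simp
      map_add' := by intro a b; simp [add_smul, Finset.sum_add_distrib] }

lemma linHom_apply {n : ℕ} (q : Fin n → V) (z : Multiplicative (Fin n → ℤ)) :
    toAdd (linHom q z) = ∑ j, (toAdd z) j • q j := rfl

lemma theta_eq {n : ℕ} (q : Fin n → V) :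
    theta π q = theta π 0 * (linHom q).comp (expHom G n) := by
  apply Monoid.Coprod.hom_ext
  · ext g
    simp [theta, expHom]
  · ext j
    apply toAdd.injective
    simp [theta, expHom, linHom_apply, Pi.single_apply]

lemma exists_q [Module F V] {m n : ℕ} (W : Fin m → Eqn G n) (B : Matrix (Fin n) (Fin m) F)
    (hB : ((expMatrix W).map (Int.cast : ℤ → F)) * B = 1) :
    ∃ q : Fin n → V, ∀ i, theta π q (W i) = 1 := by
  set c : Fin m → V := fun i => toAdd (theta π 0 (W i)) with hc
  refine ⟨fun j => - ∑ k, B j k • c k, fun i => ?_⟩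
  rw [theta_eq]
  apply toAdd.injective
  rw [MonoidHom.mul_apply, toAdd_mul, MonoidHom.comp_apply, linHom_apply, toAdd_one]
  have h1 : ∀ j, (toAdd (expHom G n (W i))) j • (- ∑ k, B j k • c k)
      = - ∑ k, (((expMatrix W).map (Int.cast : ℤ → F)) i j * B j k) • c k := by
    intro j
    rw [smul_neg, Finset.smul_sum]
    congr 1
    apply Finset.sum_congr rfl
    intro k _
    rw [mul_smul, Matrix.map_apply, Int.cast_smul_eq_zsmul]
    rfl
  rw [Finset.sum_congr rfl (fun j _ => h1 j), Finset.sum_neg_distrib, Finset.sum_comm]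
  have h2 : ∀ k, ∑ j, (((expMatrix W).map (Int.cast : ℤ → F)) i j * B j k) • c k
      = ((1 : Matrix (Fin m) (Fin m) F) i k) • c k := by
    intro k
    rw [← Finset.sum_smul, ← hB, Matrix.mul_apply]
  rw [Finset.sum_congr rfl (fun k _ => h2 k)]
  simp [Matrix.one_apply, hc]

lemma exists_sigma : ∃ σ : V → G, ∀ (p : V) (g : G),
    π (σ (p + toAdd (π g))) = π (σ p) * π g := by
  classical
  have hd : ∀ p : Multiplicative V,
      (Quotient.out (QuotientGroup.mk p : Multiplicative V ⧸ π.range))⁻¹ * p ∈ π.range :=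
    fun p => QuotientGroup.eq.1 (QuotientGroup.out_eq' _)
  refine ⟨fun p => Classical.choose (hd (ofAdd p)), fun p g => ?_⟩
  rw [Classical.choose_spec (hd (ofAdd p)), Classical.choose_spec (hd (ofAdd (p + toAdd (π g))))]
  have h1 : (ofAdd (p + toAdd (π g)) : Multiplicative V) = ofAdd p * π g := rfl
  rw [h1, QuotientGroup.mk_mul_of_mem _ (MonoidHom.mem_range.2 ⟨g, rfl⟩), mul_assoc]

end A

variable {π : G →* Multiplicative V}

/-- the Kaloujnine-Krasner embedding of `G` in the wreath product of `ker π` by `V` -/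
def KK (σ : V → G) (hσ : ∀ (p : V) (g : G), π (σ (p + toAdd (π g))) = π (σ p) * π g) :
    G →* Wr V π.ker :=
  MonoidHom.mk' (fun g => ⟨fun p => ⟨σ p * g * (σ (p + toAdd (π g)))⁻¹, by
      rw [MonoidHom.mem_ker, map_mul, map_mul, map_inv, hσ]; simp⟩, toAdd (π g)⟩) (by
    intro g h
    ext p
    · simp only [Wr.mul_fn, Subgroup.coe_mul, map_mul, toAdd_mul, add_assoc]
      group
    · simp)

lemma KK_fn (σ : V → G) (hσ) (g : G) (p : V) :
    (((KK σ hσ g).fn p : π.ker) : G) = σ p * g * (σ (p + toAdd (π g)))⁻¹ := rfl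

lemma KK_sh (σ : V → G) (hσ) (g : G) : (KK (π := π) σ hσ g).sh = toAdd (π g) := rfl

lemma KK_map_injective (σ : V → G) (hσ) {M : Type u} [Group M] (f : π.ker →* M)
    (hf : Function.Injective f) : Function.Injective ((Wr.map f).comp (KK σ hσ)) := by
  rw [injective_iff_map_eq_one]
  intro g hg
  have h1 : toAdd (π g) = 0 := by
    have := congrArg Wr.sh hg
    simpa [KK_sh] using this
  have h2 : f ((KK σ hσ g).fn 0) = 1 := by
    have := congrFun (congrArg Wr.fn hg) 0
    simpa using this
  have h3 : (KK σ hσ g).fn 0 = 1 := hf (by rw [h2, map_one])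
  have h4 := congrArg (Subtype.val) h3
  rw [KK_fn, h1, add_zero] at h4
  have h5 : σ 0 * g * (σ 0)⁻¹ = 1 := h4
  have : g = (σ 0)⁻¹ * (σ 0 * g * (σ 0)⁻¹) * σ 0 := by group
  rw [this, h5]; group

/-- the free product of `ker π` with the free group on the unknowns `x_{j,p}` -/
abbrev LL (π : G →* Multiplicative V) (n : ℕ) := Monoid.Coprod π.ker (FreeGroup (Fin n × V))

/-- the lift of the system to the wreath product -/
def Phi (σ : V → G) (hσ : ∀ (p : V) (g : G), π (σ (p + toAdd (π g))) = π (σ p) * π g)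
    {n : ℕ} (q : Fin n → V) : Eqn G n →* Wr V (LL π n) :=
  Monoid.Coprod.lift ((Wr.map Monoid.Coprod.inl).comp (KK σ hσ))
    (FreeGroup.lift fun j => ⟨fun p => Monoid.Coprod.inr (FreeGroup.of (j, p)), q j⟩)

lemma sh_Phi (σ : V → G) (hσ) {n : ℕ} (q : Fin n → V) :
    (Wr.shHom).comp (Phi (π := π) σ hσ q) = theta π q := by
  apply Monoid.Coprod.hom_ext
  · ext g
    simp [Phi, theta, KK_sh]
  · ext j
    simp [Phi, theta]

/-- exponents of the unknowns, packed in the group algebra -/
noncomputable def ex (F : Type) [Field F] (π : G →* Multiplicative V) (n : ℕ) :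
    LL π n →* Multiplicative (Fin n → AddMonoidAlgebra F V) :=
  Monoid.Coprod.lift 1
    (FreeGroup.lift fun x => ofAdd (Pi.single x.1 (AddMonoidAlgebra.single x.2 1)))

/-- additive version -/
noncomputable def ee (F : Type) [Field F] {n : ℕ} (l : LL π n) : Fin n → AddMonoidAlgebra F V := toAdd (ex F π n l)

lemma ee_mul {n : ℕ} (a b : LL π n) : ee F (a * b) = ee F a + ee F b := by
  simp [ee]

lemma ee_one {n : ℕ} : ee F (1 : LL π n) = 0 := by
  simp [ee]

lemma ee_inv {n : ℕ} (a : LL π n) : ee F a⁻¹ = - ee F a := by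
  simp [ee]

lemma ee_inl {n : ℕ} (a : π.ker) : ee F (Monoid.Coprod.inl a : LL π n) = 0 := by
  simp [ee, ex]

lemma ee_of {n : ℕ} (x : Fin n × V) :
    ee F (Monoid.Coprod.inr (FreeGroup.of x) : LL π n)
      = Pi.single x.1 (AddMonoidAlgebra.single x.2 1) := by
  simp [ee, ex]

/-- equivariance and augmentation of the exponents -/
def Good (F : Type) [Field F] {n : ℕ} (a : Wr V (LL π n)) (z : Fin n → ℤ) : Prop :=
  (∀ p j, ee F (a.fn p) j = AddMonoidAlgebra.single p 1 * ee F (a.fn 0) j) ∧
    ∀ j, augF F V (ee F (a.fn 0) j) = (z j : F)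

lemma Good.one {n : ℕ} : Good F (1 : Wr V (LL π n)) 0 := by
  constructor
  · intro p j; simp [ee_one]
  · intro j; simp [ee_one]

lemma Good.mul {n : ℕ} {a b : Wr V (LL π n)} {z z' : Fin n → ℤ} (ha : Good F a z) (hb : Good F b z') :
    Good F (a * b) (z + z') := by
  constructor
  · intro p j
    simp only [Wr.mul_fn, ee_mul, Pi.add_apply]
    rw [ha.1 p j, hb.1 (p + a.sh) j, hb.1 (0 + a.sh) j, mul_add, ← mul_assoc,
      AddMonoidAlgebra.single_mul_single]
    simp
  · intro j
    simp only [Wr.mul_fn, ee_mul, Pi.add_apply, map_add]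
    rw [hb.1 (0 + a.sh) j, map_mul, ha.2 j, hb.2 j]
    simp

lemma Good.inv {n : ℕ} {a : Wr V (LL π n)} {z : Fin n → ℤ} (ha : Good F a z) :
    Good F a⁻¹ (-z) := by
  constructor
  · intro p j
    simp only [Wr.inv_fn, ee_inv, Pi.neg_apply]
    rw [ha.1 (p - a.sh) j, ha.1 (0 - a.sh) j, mul_neg, ← mul_assoc,
      AddMonoidAlgebra.single_mul_single]
    simp [sub_eq_add_neg]
  · intro j
    simp only [Wr.inv_fn, ee_inv, Pi.neg_apply, map_neg]
    rw [ha.1 (0 - a.sh) j, map_mul, ha.2 j]
    simp

lemma good_Phi (σ : V → G) (hσ) {n : ℕ} (q : Fin n → V) (w : Eqn G n) :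
    Good F (Phi (π := π) σ hσ q w) (toAdd (expHom G n w)) := by
  induction w using Monoid.Coprod.induction_on with
  | inl g =>
    constructor
    · intro p j
      simp [Phi, ee_inl]
    · intro j
      simp [Phi, ee_inl, expHom]
  | inr z =>
    induction z using FreeGroup.induction_on with
    | C1 => simpa using Good.one
    | of j0 =>
      constructor
      · intro p j
        simp only [Phi, Monoid.Coprod.lift_apply_inr, FreeGroup.lift_apply_of, ee_of]
        by_cases h : j = j0
        · subst h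
          simp [AddMonoidAlgebra.single_mul_single]
        · simp [Pi.single_apply, h]
      · intro j
        simp only [Phi, Monoid.Coprod.lift_apply_inr, FreeGroup.lift_apply_of, ee_of, expHom]
        by_cases h : j = j0
        · subst h
          simp
        · simp [Pi.single_apply, h]
    | inv_of j0 ih =>
      have := ih.inv
      simpa using this
    | mul x y hx hy =>
      have := hx.mul hy
      simpa using this
  | mul x y hx hy =>
    have := hx.mul hy
    simpa using this

/-- the infinite system over `ker π` -/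
def EE (σ : V → G) (hσ : ∀ (p : V) (g : G), π (σ (p + toAdd (π g))) = π (σ p) * π g)
    {m n : ℕ} (q : Fin n → V) (W : Fin m → Eqn G n) (s : Fin m × V) : LL π n :=
  (Phi σ hσ q (W s.1)).fn s.2

lemma ind (hD : DProp F V) (σ : V → G) (hσ) {m n : ℕ} (q : Fin n → V) (W : Fin m → Eqn G n)
    (B : Matrix (Fin n) (Fin m) F)
    (hB : ((expMatrix W).map (Int.cast : ℤ → F)) * B = 1)
    (S : Finset (Fin m × V)) (c : Fin m × V → F)
    (h : ∀ j p, ∑ s ∈ S, c s * (ee F (EE (π := π) σ hσ q W s) j).coeff p = 0) :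
    ∀ s ∈ S, c s = 0 := by
  classical
  set A' : Matrix (Fin m) (Fin n) (AddMonoidAlgebra F V) :=
    fun i j => ee F (EE σ hσ q W (i, 0)) j with hA'
  have hE : ∀ s j, ee F (EE σ hσ q W s) j = AddMonoidAlgebra.single s.2 1 * A' s.1 j :=
    fun s j => (good_Phi σ hσ q (W s.1)).1 s.2 j
  have haug : A'.map (augF F V) = (expMatrix W).map (Int.cast : ℤ → F) := by
    ext i j
    exact (good_Phi σ hσ q (W i)).2 j
  set r : Fin m → AddMonoidAlgebra F V :=
    fun i => ∑ s ∈ S, if s.1 = i then AddMonoidAlgebra.single s.2 (c s) else 0 with hr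
  have h1 : Matrix.vecMul r A' = 0 := by
    funext j
    have e1 : Matrix.vecMul r A' j = ∑ s ∈ S, c s • ee F (EE σ hσ q W s) j := by
      simp only [Matrix.vecMul, dotProduct, hr, Finset.sum_mul, ite_mul, zero_mul]
      rw [Finset.sum_comm]
      apply Finset.sum_congr rfl
      intro s _
      rw [Finset.sum_ite_eq, if_pos (Finset.mem_univ _), hE, ← smul_mul_assoc,
        AddMonoidAlgebra.smul_single, smul_eq_mul, mul_one]
    rw [e1]
    apply AddMonoidAlgebra.ext
    ext p
    rw [AddMonoidAlgebra.coeff_sum, Finsupp.finsetSum_apply]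
    simpa [AddMonoidAlgebra.coeff_smul] using h j p
  have h2 : r = 0 := vecMul_injF hD A' B (by rw [haug]; exact hB) r h1
  intro s0 hs0
  have h3 : (r s0.1).coeff s0.2 = c s0 := by
    simp only [hr]
    rw [AddMonoidAlgebra.coeff_sum, Finsupp.finsetSum_apply]
    have : ∀ s ∈ S, ((if s.1 = s0.1 then AddMonoidAlgebra.single s.2 (c s) else 0 :
        AddMonoidAlgebra F V).coeff) s0.2 = if s = s0 then c s else 0 := by
      intro s _
      by_cases ha : s.1 = s0.1
      · by_cases hb : s.2 = s0.2
        · have : s = s0 := Prod.ext ha hb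
          subst this
          simp [AddMonoidAlgebra.coeff_single]
        · have : s ≠ s0 := fun e => hb (by rw [e])
          simp [ha, this, AddMonoidAlgebra.coeff_single, Finsupp.single_apply, hb]
      · have : s ≠ s0 := fun e => ha (by rw [e])
        simp [ha, this]
    rw [Finset.sum_congr rfl this, Finset.sum_ite_eq', if_pos hs0]
  rw [h2] at h3
  simpa using h3.symm

/-- membership in a normal closure is witnessed by finitely many generators -/
lemma mem_normalClosure_finite {L : Type u} [Group L] {ι : Type u} (E : ι → L) {x : L}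
    (hx : x ∈ Subgroup.normalClosure (Set.range E)) :
    ∃ S : Finset ι, x ∈ Subgroup.normalClosure (E '' (S : Set ι)) := by
  classical
  unfold Subgroup.normalClosure at hx
  induction hx using Subgroup.closure_induction with
  | mem y hy =>
    obtain ⟨a, ⟨i, rfl⟩, hc⟩ := Group.mem_conjugatesOfSet_iff.1 hy
    refine ⟨{i}, ?_⟩
    apply Subgroup.conjugatesOfSet_subset_normalClosure
    exact Group.mem_conjugatesOfSet_iff.2 ⟨E i, ⟨i, by simp, rfl⟩, hc⟩
  | one => exact ⟨∅, Subgroup.one_mem _⟩
  | mul y z _ _ hy hz =>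
    obtain ⟨S1, h1⟩ := hy
    obtain ⟨S2, h2⟩ := hz
    refine ⟨S1 ∪ S2, Subgroup.mul_mem _ ?_ ?_⟩
    · exact Subgroup.normalClosure_mono (Set.image_mono (by simp)) h1
    · exact Subgroup.normalClosure_mono (Set.image_mono (by simp)) h2
  | inv y _ hy =>
    obtain ⟨S1, h1⟩ := hy
    exact ⟨S1, Subgroup.inv_mem _ h1⟩

lemma LL_ext {A : Type} [AddCommGroup A] {n : ℕ} (f1 f2 : LL π n → A)
    (h1 : ∀ x y, f1 (x * y) = f1 x + f1 y) (h2 : ∀ x y, f2 (x * y) = f2 x + f2 y)
    (hinl : ∀ a, f1 (Monoid.Coprod.inl a) = f2 (Monoid.Coprod.inl a))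
    (hof : ∀ x, f1 (Monoid.Coprod.inr (FreeGroup.of x)) = f2 (Monoid.Coprod.inr (FreeGroup.of x)))
    (l : LL π n) : f1 l = f2 l := by
  let F1 : LL π n →* Multiplicative A :=
    MonoidHom.mk' (fun l => ofAdd (f1 l)) (by intro x y; simp [h1])
  let F2 : LL π n →* Multiplicative A :=
    MonoidHom.mk' (fun l => ofAdd (f2 l)) (by intro x y; simp [h2])
  have h : F1 = F2 := by
    apply Monoid.Coprod.hom_ext
    · ext a; exact congrArg ofAdd (hinl a)
    · ext x; exact congrArg ofAdd (hof x)
  exact ofAdd.injective (DFunLike.congr_fun h l)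

lemma single_coeff {n : ℕ} (x y : Fin n × V) [Decidable (x = y)] :
    ((Pi.single x.1 (AddMonoidAlgebra.single x.2 (1 : F)) :
      Fin n → AddMonoidAlgebra F V) y.1).coeff y.2 = if x = y then 1 else 0 := by
  classical
  by_cases ha : y.1 = x.1
  · by_cases hb : x.2 = y.2
    · have : x = y := Prod.ext ha.symm hb
      subst this
      simp [AddMonoidAlgebra.coeff_single]
    · have : x ≠ y := fun e => hb (by rw [e])
      rw [if_neg this, ha, Pi.single_eq_same, AddMonoidAlgebra.coeff_single,
        Finsupp.single_apply, if_neg hb]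
  · have : x ≠ y := fun e => ha (by rw [e])
    rw [if_neg this, Pi.single_eq_of_ne ha]
    simp

lemma finite_sub (hD : DProp F V)
    (hN : ∀ (m n : ℕ) (W : Fin m → Eqn π.ker n), NonsingularF F W → SolvableOver W)
    (σ : V → G) (hσ) {m n : ℕ} (q : Fin n → V) (W : Fin m → Eqn G n)
    (B : Matrix (Fin n) (Fin m) F)
    (hB : ((expMatrix W).map (Int.cast : ℤ → F)) * B = 1)
    (S : Finset (Fin m × V)) :
    ∃ (H' : Type u) (_ : Group H') (Ψ : LL π n →* H'),
      (∀ s ∈ S, Ψ (EE σ hσ q W s) = 1) ∧ Function.Injective (Ψ.comp Monoid.Coprod.inl) := by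
  classical
  set E := EE (π := π) σ hσ q W with hEdef
  set T : Finset (Fin n × V) := S.biUnion fun s => Finset.univ.biUnion fun j =>
    ((ee F (E s) j).coeff.support).image fun p => (j, p) with hTdef
  have hT : ∀ s ∈ S, ∀ j p, (j, p) ∉ T → (ee F (E s) j).coeff p = 0 := by
    intro s hs j p hjp
    by_contra hne
    apply hjp
    simp only [hTdef, Finset.mem_biUnion, Finset.mem_image]
    exact ⟨s, hs, j, Finset.mem_univ _, p, Finsupp.mem_support_iff.2 hne, rfl⟩
  let eS := S.equivFin
  let eT := T.equivFin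
  let ρ : LL π n →* Eqn π.ker T.card :=
    Monoid.Coprod.lift Monoid.Coprod.inl (Monoid.Coprod.inr.comp
      (FreeGroup.lift fun x => if h : x ∈ T then FreeGroup.of (eT ⟨x, h⟩) else 1))
  let W' : Fin S.card → Eqn π.ker T.card := fun k => ρ (E (eS.symm k).1)
  have ha : ∀ (t : Fin T.card) (l : LL π n),
      ((toAdd (expHom π.ker T.card (ρ l)) t : ℤ) : F)
        = (ee F l (eT.symm t).1.1).coeff (eT.symm t).1.2 := by
    intro t
    apply LL_ext
    · intro x y; simp
    · intro x y; simp [ee_mul, AddMonoidAlgebra.coeff_add]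
    · intro a; simp [ρ, expHom, ee_inl]
    · intro x
      rw [ee_of, single_coeff]
      by_cases hx : x ∈ T
      · by_cases hxt : eT ⟨x, hx⟩ = t
        · have : x = (eT.symm t).1 := by rw [← hxt]; simp
          rw [if_pos this]
          simp [ρ, expHom, hx, hxt]
        · have : x ≠ (eT.symm t).1 := by
            intro e
            apply hxt
            have : (⟨x, hx⟩ : T) = eT.symm t := Subtype.ext e
            rw [this]; simp
          rw [if_neg this]
          simp [ρ, expHom, hx, Pi.single_apply, Ne.symm hxt]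
      · have : x ≠ (eT.symm t).1 := by
          intro e
          exact hx (e ▸ (eT.symm t).2)
        rw [if_neg this]
        simp [ρ, expHom, hx]
  have hns : NonsingularF F W' := by
    unfold NonsingularF
    have hli : LinearIndependent F ((expMatrix W').map (Int.cast : ℤ → F)).row := by
      rw [Fintype.linearIndependent_iff]
      intro c hc k0
      let c' : Fin m × V → F := fun s => if h : s ∈ S then c (eS ⟨s, h⟩) else 0
      have hc' : ∀ k, c' (eS.symm k).1 = c k := by
        intro k
        simp [c']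
      have key : ∀ j p, ∑ s ∈ S, c' s * (ee F (E s) j).coeff p = 0 := by
        intro j p
        by_cases hjp : (j, p) ∈ T
        · have h4 := congrFun hc (eT ⟨(j, p), hjp⟩)
          simp only [Finset.sum_apply, Pi.smul_apply, Matrix.row, Matrix.map_apply, smul_eq_mul,
            Pi.zero_apply] at h4
          rw [← Finset.sum_coe_sort S, ← eS.symm.sum_comp, ← h4]
          apply Finset.sum_congr rfl
          intro k _
          have h6 := ha (eT ⟨(j, p), hjp⟩) (E (eS.symm k).1)
          simp only [Equiv.symm_apply_apply] at h6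
          rw [hc', ← h6]
          rfl
        · apply Finset.sum_eq_zero
          intro s hs
          rw [hT s hs j p hjp, mul_zero]
      have := ind hD σ hσ q W B hB S c' key (eS.symm k0).1 (eS.symm k0).2
      rw [hc'] at this
      exact this
    rw [hli.rank_matrix, Fintype.card_fin]
  obtain ⟨H', iH, ψ, h', hinj, hsol⟩ := hN _ _ W' hns
  refine ⟨H', iH, (ev ψ h').comp ρ, ?_, ?_⟩
  · intro s hs
    have := hsol (eS ⟨s, hs⟩)
    simpa [W'] using this
  · have : ((ev ψ h').comp ρ).comp Monoid.Coprod.inl = ψ := by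
      ext a
      simp [ρ, ev]
    rw [this]
    exact hinj


end Vale.Agent.Lib.P174.Gen
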