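import Vale.Agent.Lib.P174.Defs

namespace Vale.Agent.Lib.P174

universe u

/-- nonsingular over the field `F`: the exponent-sum matrix, read in `F`, has rank `m` -/
def NonsingularF (F : Type) [Field F] {G : Type u} [Group G] {m n : ℕ} (W : Fin m → Eqn G n) :
    Prop :=
  ((expMatrix W).map (Int.cast : ℤ → F)).rank = m

end Vale.Agent.Lib.P174
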