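import Vale.Agent.Lib.P174.Gen

set_option linter.unusedSectionVars false

namespace Vale.Agent.Lib.P174.Gen

universe u

open Multiplicative Vale.Agent.Lib.P174

variable {F : Type} [Field F] {G : Type u} [Group G] {V : Type u} [AddCommGroup V]

theorem howie_gen (hD : DProp F V) (π : G →* Multiplicative V)
    (hN : ∀ (m n : ℕ) (W : Fin m → Eqn π.ker n), NonsingularF F W → SolvableOver W)
    {m n : ℕ} (W : Fin m → Eqn G n) (hW : NonsingularF F W)
    (hq : ∃ q : Fin n → V, ∀ i, theta π q (W i) = 1) : SolvableOver W := by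
  obtain ⟨B, hB⟩ := exists_rightInvF _ hW
  obtain ⟨q, hq⟩ := hq
  obtain ⟨σ, hσ⟩ := exists_sigma π
  set E := EE (π := π) σ hσ q W with hE
  let K : Subgroup (LL π n) := Subgroup.normalClosure (Set.range E)
  let ρ : LL π n →* LL π n ⧸ K := QuotientGroup.mk' K
  have hinj : Function.Injective (ρ.comp Monoid.Coprod.inl) := by
    rw [injective_iff_map_eq_one]
    intro a ha
    have h1 : (Monoid.Coprod.inl a : LL π n) ∈ K := (QuotientGroup.eq_one_iff _).1 ha
    obtain ⟨S, hS⟩ := mem_normalClosure_finite E h1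
    obtain ⟨H', _, Ψ, hk, hi⟩ := finite_sub hD hN σ hσ q W B hB S
    have h2 : Subgroup.normalClosure (E '' (S : Set _)) ≤ Ψ.ker := by
      apply Subgroup.normalClosure_le_normal
      rintro _ ⟨s, hs, rfl⟩
      exact hk s hs
    have h3 : Ψ (Monoid.Coprod.inl a) = 1 := h2 hS
    exact hi (by simpa using h3)
  refine ⟨Wr V (LL π n ⧸ K), inferInstance, (Wr.map (ρ.comp Monoid.Coprod.inl)).comp (KK σ hσ),
    fun j => Wr.map ρ (Phi σ hσ q (X j)), KK_map_injective σ hσ _ hinj, ?_⟩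
  intro i
  have h4 : ev ((Wr.map (ρ.comp Monoid.Coprod.inl)).comp (KK σ hσ))
      (fun j => Wr.map ρ (Phi σ hσ q (X j))) = (Wr.map ρ).comp (Phi σ hσ q) := by
    apply Monoid.Coprod.hom_ext
    · ext g
      · simp [ev, Phi]
      · simp [ev, Phi]
    · ext j
      · simp [ev, X]
      · simp [ev, X]
  rw [h4]
  ext p
  · show ρ ((Phi σ hσ q (W i)).fn p) = 1
    exact (QuotientGroup.eq_one_iff _).2 (Subgroup.subset_normalClosure ⟨(i, p), rfl⟩)
  · have h5 := DFunLike.congr_fun (sh_Phi (π := π) σ hσ q) (W i)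
    rw [hq i] at h5
    have h6 : (Phi σ hσ q (W i)).sh = 0 := by
      have := congrArg toAdd h5
      simpa using this
    simpa using h6

/-- a right inverse modulo `p` gives a right inverse over the rationals -/
lemma rightInv_rat_of_mod (p : ℕ) [Fact p.Prime] {m n : ℕ} (A : Matrix (Fin m) (Fin n) ℤ)
    (h : (A.map (Int.cast : ℤ → ZMod p)).rank = m) :
    ∃ B : Matrix (Fin n) (Fin m) ℚ, A.map (Int.cast : ℤ → ℚ) * B = 1 := by
  obtain ⟨Bp, hBp⟩ := exists_rightInvF _ h
  set Bt : Matrix (Fin n) (Fin m) ℤ := Bp.map (fun x => (x.val : ℤ)) with hBt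
  have h1 : Bt.map (Int.cast : ℤ → ZMod p) = Bp := by
    ext i j
    simp [hBt]
  set D : Matrix (Fin m) (Fin m) ℤ := A * Bt with hDdef
  have h2 : (Int.castRingHom (ZMod p)).mapMatrix D = 1 := by
    rw [hDdef, RingHom.mapMatrix_apply, Matrix.map_mul]
    have : Bt.map (Int.castRingHom (ZMod p)) = Bp := h1
    rw [this]
    exact hBp
  have h3 : D.det ≠ 0 := by
    intro h0
    have := RingHom.map_det (Int.castRingHom (ZMod p)) D
    rw [h2, h0] at this
    simp at this
  set DQ : Matrix (Fin m) (Fin m) ℚ := (Int.castRingHom ℚ).mapMatrix D with hDQ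
  have h4 : DQ.det ≠ 0 := by
    rw [hDQ, ← RingHom.map_det]
    simpa using h3
  refine ⟨Bt.map (Int.cast : ℤ → ℚ) * DQ⁻¹, ?_⟩
  have h5 : A.map (Int.cast : ℤ → ℚ) * Bt.map (Int.cast : ℤ → ℚ) = DQ := by
    rw [hDQ, hDdef, RingHom.mapMatrix_apply, Matrix.map_mul]
    rfl
  rw [← Matrix.mul_assoc, h5]
  exact Matrix.mul_nonsing_inv _ (isUnit_iff_ne_zero.2 h4)

lemma rank_of_rightInv {m n : ℕ} (A : Matrix (Fin m) (Fin n) ℚ) (B : Matrix (Fin n) (Fin m) ℚ)
    (h : A * B = 1) : A.rank = m := by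
  apply le_antisymm
  · simpa using A.rank_le_card_height
  · have h1 := Matrix.rank_mul_le_left A B
    rw [h, Matrix.rank_one, Fintype.card_fin] at h1
    exact h1

lemma nonsingular_of_mod (p : ℕ) [Fact p.Prime] {m n : ℕ} (W : Fin m → Eqn G n)
    (h : NonsingularF (ZMod p) W) : Nonsingular W := by
  obtain ⟨B, hB⟩ := rightInv_rat_of_mod p _ h
  exact rank_of_rightInv _ B hB

/-- quotient an `F_p`-vector space -/
theorem howie_modp_elem (p : ℕ) [Fact p.Prime] [Module (ZMod p) V] (π : G →* Multiplicative V)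
    (hN : ∀ (m n : ℕ) (W : Fin m → Eqn π.ker n), NonsingularF (ZMod p) W → SolvableOver W)
    {m n : ℕ} (W : Fin m → Eqn G n) (hW : NonsingularF (ZMod p) W) : SolvableOver W := by
  obtain ⟨B, hB⟩ := exists_rightInvF _ hW
  exact howie_gen (DProp_zmod p) π hN W hW (exists_q π W B hB)

/-- quotient a rational vector space -/
theorem howie_modp_rat (p : ℕ) [Fact p.Prime] [Module ℚ V] (π : G →* Multiplicative V)
    (hN : ∀ (m n : ℕ) (W : Fin m → Eqn π.ker n), NonsingularF (ZMod p) W → SolvableOver W)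
    {m n : ℕ} (W : Fin m → Eqn G n) (hW : NonsingularF (ZMod p) W) : SolvableOver W := by
  obtain ⟨B, hB⟩ := rightInv_rat_of_mod p _ hW
  exact howie_gen (DProp_of_noZeroDivisors) π hN W hW (exists_q π W B hB)

end Vale.Agent.Lib.P174.Gen
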