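import Vale.Agent.Lib.P174.GenE

set_option linter.unusedSectionVars false

namespace Vale.Agent.Lib.P174.Gen

universe u

open Multiplicative TensorProduct Vale.Agent.Lib.P174

/-- solvability of all `F`-nonsingular finite systems passes to subgroups -/
lemma KF_mono {F : Type} [Field F] {N₁ N₂ : Type u} [Group N₁] [Group N₂] (e : N₁ →* N₂)
    (he : Function.Injective e)
    (h : ∀ (m n : ℕ) (W : Fin m → Eqn N₂ n), NonsingularF F W → SolvableOver W) :
    ∀ (m n : ℕ) (W : Fin m → Eqn N₁ n), NonsingularF F W → SolvableOver W := by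
  intro m n W hW
  let μ : Eqn N₁ n →* Eqn N₂ n := Monoid.Coprod.map e (MonoidHom.id _)
  have h1 : (expHom N₂ n).comp μ = expHom N₁ n := by
    apply Monoid.Coprod.hom_ext
    · ext a
      simp [μ, expHom]
    · ext j
      simp [μ, expHom]
  have h2 : expMatrix (fun i => μ (W i)) = expMatrix W := by
    ext i j
    simp only [expMatrix]
    rw [← h1]
    rfl
  obtain ⟨H, iH, φ, hh, hinj, hsol⟩ := h m n (fun i => μ (W i))
    (by unfold NonsingularF; rw [h2]; exact hW)
  refine ⟨H, iH, φ.comp e, hh, hinj.comp he, fun i => ?_⟩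
  have h3 : ev (φ.comp e) hh = (ev φ hh).comp μ := by
    apply Monoid.Coprod.hom_ext
    · ext a
      simp [ev, μ]
    · ext j
      simp [ev, μ]
  rw [h3]
  exact hsol i

variable {G : Type u} [Group G]

/-- the quotient as a commutative group -/
@[reducible] def quotComm (N : Subgroup G) [N.Normal] (hab : ∀ a b : G, a * b * a⁻¹ * b⁻¹ ∈ N) :
    CommGroup (G ⧸ N) :=
  { (inferInstance : Group (G ⧸ N)) with
    mul_comm := by
      intro x y
      induction x using QuotientGroup.induction_on with
      | H a =>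
        induction y using QuotientGroup.induction_on with
        | H b =>
          rw [← QuotientGroup.mk_mul, ← QuotientGroup.mk_mul, QuotientGroup.eq]
          have := hab b⁻¹ a⁻¹
          simpa [mul_assoc] using this }

theorem modp_tf_quot (p : ℕ) [Fact p.Prime] (N : Subgroup G) [N.Normal]
    (hab : ∀ a b : G, a * b * a⁻¹ * b⁻¹ ∈ N)
    (htf : ∀ (a : G) (k : ℕ), 0 < k → a ^ k ∈ N → a ∈ N)
    (hN : ∀ (m n : ℕ) (W : Fin m → Eqn N n), NonsingularF (ZMod p) W → SolvableOver W)
    (m n : ℕ) (W : Fin m → Eqn G n) (hW : NonsingularF (ZMod p) W) : SolvableOver W := by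
  classical
  let _ : CommGroup (G ⧸ N) := quotComm N hab
  let π : G →* Multiplicative (ℚ ⊗[ℤ] Additive (G ⧸ N)) :=
    MonoidHom.mk' (fun g => ofAdd ((1 : ℚ) ⊗ₜ[ℤ] (Additive.ofMul (QuotientGroup.mk g : G ⧸ N))))
      (by
        intro a b
        rw [QuotientGroup.mk_mul, ofMul_mul, TensorProduct.tmul_add, ofAdd_add])
  have hker : π.ker = N := by
    ext g
    rw [MonoidHom.mem_ker]
    constructor
    · intro hg
      have h1 : (TensorProduct.mk ℤ ℚ (Additive (G ⧸ N)) 1)
          (Additive.ofMul (QuotientGroup.mk g : G ⧸ N)) = 0 := congrArg toAdd hg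
      rw [IsLocalizedModule.eq_zero_iff (nonZeroDivisors ℤ)] at h1
      obtain ⟨s, hs⟩ := h1
      have hs0 : (s : ℤ) ≠ 0 := nonZeroDivisors.coe_ne_zero s
      have h2 : (QuotientGroup.mk g : G ⧸ N) ^ (s : ℤ) = 1 := by
        have : (s : ℤ) • (Additive.ofMul (QuotientGroup.mk g : G ⧸ N)) = 0 := hs
        exact congrArg Additive.toMul this
      have h3 : g ^ (s : ℤ) ∈ N := by
        rw [← QuotientGroup.mk_zpow] at h2
        exact (QuotientGroup.eq_one_iff _).1 h2
      apply htf g (s : ℤ).natAbs (Int.natAbs_pos.2 hs0)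
      rcases Int.natAbs_eq (s : ℤ) with h | h
      · rw [h, zpow_natCast] at h3
        simpa using h3
      · rw [h, zpow_neg, zpow_natCast] at h3
        simpa using N.inv_mem h3
    · intro hg
      have h1 : (QuotientGroup.mk g : G ⧸ N) = 1 := (QuotientGroup.eq_one_iff _).2 hg
      show ofAdd ((1 : ℚ) ⊗ₜ[ℤ] (Additive.ofMul (QuotientGroup.mk g : G ⧸ N))) = 1
      rw [h1]
      simp
  have hN' : ∀ (m n : ℕ) (W : Fin m → Eqn π.ker n),
      NonsingularF (ZMod p) W → SolvableOver W := by
    rw [hker]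
    exact hN
  exact howie_modp_rat p π hN' W hW

theorem modp_elem_quot (p : ℕ) [Fact p.Prime] (N : Subgroup G) [N.Normal]
    (hab : ∀ a b : G, a * b * a⁻¹ * b⁻¹ ∈ N)
    (hp : ∀ a : G, a ^ p ∈ N)
    (hN : ∀ (m n : ℕ) (W : Fin m → Eqn N n), NonsingularF (ZMod p) W → SolvableOver W)
    (m n : ℕ) (W : Fin m → Eqn G n) (hW : NonsingularF (ZMod p) W) : SolvableOver W := by
  classical
  let _ : CommGroup (G ⧸ N) := quotComm N hab
  let _ : Module (ZMod p) (Additive (G ⧸ N)) := AddCommGroup.zmodModule (by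
    intro x
    induction x using Additive.rec with
    | ofMul x =>
      induction x using QuotientGroup.induction_on with
      | H a =>
        rw [← ofMul_pow, ← QuotientGroup.mk_pow, (QuotientGroup.eq_one_iff _).2 (hp a)]
        rfl)
  let π : G →* Multiplicative (Additive (G ⧸ N)) :=
    MonoidHom.mk' (fun g => ofAdd (Additive.ofMul (QuotientGroup.mk g : G ⧸ N)))
      (by
        intro a b
        rw [QuotientGroup.mk_mul, ofMul_mul, ofAdd_add])
  have hker : π.ker = N := by
    ext g
    rw [MonoidHom.mem_ker]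
    constructor
    · intro hg
      have h1 : (QuotientGroup.mk g : G ⧸ N) = 1 := congrArg (fun x => Additive.toMul (toAdd x)) hg
      exact (QuotientGroup.eq_one_iff _).1 h1
    · intro hg
      have h1 : (QuotientGroup.mk g : G ⧸ N) = 1 := (QuotientGroup.eq_one_iff _).2 hg
      show ofAdd (Additive.ofMul (QuotientGroup.mk g : G ⧸ N)) = 1
      rw [h1]
      rfl
  have hN' : ∀ (m n : ℕ) (W : Fin m → Eqn π.ker n),
      NonsingularF (ZMod p) W → SolvableOver W := by
    rw [hker]
    exact hN
  exact howie_modp_elem p π hN' W hW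

end Vale.Agent.Lib.P174.Gen
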