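import Vale.Agent.Lib.P174.GenF

set_option linter.unusedSectionVars false

namespace Vale.Agent.Lib.P174.Gen

universe u

open Vale.Agent.Lib.P174

variable {G : Type u} [Group G]

/-- central elements of exponent `p` -/
def omegaCenter (P : Type u) [Group P] (p : ℕ) : Subgroup P where
  carrier := {z | z ∈ Subgroup.center P ∧ z ^ p = 1}
  mul_mem' := by
    rintro a b ⟨ha, ha'⟩ ⟨hb, hb'⟩
    refine ⟨Subgroup.mul_mem _ ha hb, ?_⟩
    have hc : Commute a b := (Subgroup.mem_center_iff.1 ha b).symm
    rw [hc.mul_pow, ha', hb', one_mul]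
  one_mem' := ⟨Subgroup.one_mem _, one_pow _⟩
  inv_mem' := by
    rintro a ⟨ha, ha'⟩
    exact ⟨Subgroup.inv_mem _ ha, by rw [inv_pow, ha', inv_one]⟩

instance (P : Type u) [Group P] (p : ℕ) : (omegaCenter P p).Normal := by
  constructor
  rintro z ⟨hz, hz'⟩ g
  have : g * z * g⁻¹ = z := by
    rw [Subgroup.mem_center_iff.1 hz g, mul_assoc, mul_inv_cancel, mul_one]
  rw [this]
  exact ⟨hz, hz'⟩

theorem modp_pgroup (p : ℕ) [Fact p.Prime] : ∀ (d : ℕ) (N : Subgroup G) [N.Normal],
    N.index = d → d ≠ 0 → IsPGroup p (G ⧸ N) →
    (∀ (m n : ℕ) (W : Fin m → Eqn N n), NonsingularF (ZMod p) W → SolvableOver W) →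
    ∀ (m n : ℕ) (W : Fin m → Eqn G n), NonsingularF (ZMod p) W → SolvableOver W := by
  intro d
  induction d using Nat.strong_induction_on with
  | _ d ih =>
    intro N _ hd hd0 hP hN
    by_cases hN1 : N = ⊤
    · subst hN1
      exact KF_mono ((Subgroup.topEquiv (G := G)).symm.toMonoidHom)
        ((Subgroup.topEquiv (G := G)).symm.injective) hN
    · have hfin : Finite (G ⧸ N) := by
        have : N.FiniteIndex := ⟨by rw [hd]; exact hd0⟩
        infer_instance
      have hnt : Nontrivial (G ⧸ N) := by
        rw [QuotientGroup.nontrivial_iff]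
        exact hN1
      have hc : Nontrivial (Subgroup.center (G ⧸ N)) := hP.center_nontrivial
      have hPc : IsPGroup p (Subgroup.center (G ⧸ N)) := hP.to_subgroup _
      have hdvd : p ∣ Nat.card (Subgroup.center (G ⧸ N)) := by
        rcases hPc.card_eq_or_dvd with h | h
        · exact absurd h (ne_of_gt Finite.one_lt_card)
        · exact h
      obtain ⟨z, hz⟩ := exists_prime_orderOf_dvd_card' p hdvd
      obtain ⟨g, hg⟩ := QuotientGroup.mk_surjective (z : G ⧸ N)
      set N1 : Subgroup G := (omegaCenter (G ⧸ N) p).comap (QuotientGroup.mk' N) with hN1def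
      have hle : N ≤ N1 := by
        intro a ha
        have : (QuotientGroup.mk a : G ⧸ N) = 1 := (QuotientGroup.eq_one_iff _).2 ha
        show (QuotientGroup.mk a : G ⧸ N) ∈ omegaCenter (G ⧸ N) p
        rw [this]
        exact Subgroup.one_mem _
      have hgN1 : g ∈ N1 := by
        show (QuotientGroup.mk g : G ⧸ N) ∈ omegaCenter (G ⧸ N) p
        rw [hg]
        refine ⟨z.2, ?_⟩
        have := pow_orderOf_eq_one z
        rw [hz] at this
        exact congrArg Subtype.val this
      have hgN : g ∉ N := by
        intro h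
        have h1 : (QuotientGroup.mk g : G ⧸ N) = 1 := (QuotientGroup.eq_one_iff _).2 h
        rw [hg] at h1
        have h2 : z = 1 := Subtype.ext h1
        rw [h2, orderOf_one] at hz
        exact (Fact.out : p.Prime).one_lt.ne hz
      -- the class of `N1`
      have hK1 : ∀ (m n : ℕ) (W : Fin m → Eqn N1 n),
          NonsingularF (ZMod p) W → SolvableOver W := by
        apply modp_elem_quot p (N.subgroupOf N1)
        · intro a b
          rw [Subgroup.mem_subgroupOf]
          have ha : (QuotientGroup.mk (a : G) : G ⧸ N) ∈ Subgroup.center (G ⧸ N) := a.2.1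
          apply (QuotientGroup.eq_one_iff _).1
          simp only [Subgroup.coe_mul, Subgroup.coe_inv, QuotientGroup.mk_mul, QuotientGroup.mk_inv]
          rw [← Subgroup.mem_center_iff.1 ha]
          group
        · intro a
          rw [Subgroup.mem_subgroupOf]
          apply (QuotientGroup.eq_one_iff _).1
          simp only [Subgroup.coe_pow, QuotientGroup.mk_pow]
          exact a.2.2
        · exact KF_mono (Subgroup.subgroupOfEquivOfLe hle).toMonoidHom
            (Subgroup.subgroupOfEquivOfLe hle).injective hN
      have hmul := Subgroup.relIndex_mul_index hle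
      rw [hd] at hmul
      have hi0 : N1.index ≠ 0 := by
        intro h
        rw [h, mul_zero] at hmul
        exact hd0 hmul.symm
      have hr0 : N.relIndex N1 ≠ 0 := by
        intro h
        rw [h, zero_mul] at hmul
        exact hd0 hmul.symm
      have hr1 : N.relIndex N1 ≠ 1 := by
        intro h
        exact hgN (Subgroup.relIndex_eq_one.1 h hgN1)
      have hlt : N1.index < d := by
        have h2 : 2 ≤ N.relIndex N1 := by omega
        have h3 : 0 < N1.index := Nat.pos_of_ne_zero hi0
        nlinarith
      have hP1 : IsPGroup p (G ⧸ N1) := by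
        intro x
        induction x using QuotientGroup.induction_on with
        | H a =>
          obtain ⟨k, hk⟩ := hP (QuotientGroup.mk a)
          refine ⟨k, ?_⟩
          rw [← QuotientGroup.mk_pow] at hk ⊢
          exact (QuotientGroup.eq_one_iff _).2 (hle ((QuotientGroup.eq_one_iff _).1 hk))
      exact ih N1.index hlt N1 rfl hi0 hP1 hK1

end Vale.Agent.Lib.P174.Gen
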