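import Vale.Agent.Lib.P174.GenG
import Vale.Agent.Lib.P174.ExtF

set_option linter.unusedSectionVars false

namespace Vale.Agent.Lib.P174.Gen

universe u

open Vale.Agent.Lib.P174

variable {G : Type u} [Group G]

/-- one step of a series, modulo `p` -/
theorem step_modp (p : ℕ) [Fact p.Prime] (A B : Subgroup G) (hle : A ≤ B)
    (hn : (A.subgroupOf B).Normal)
    (hfac : ((∀ a ∈ B, ∀ b ∈ B, a * b * a⁻¹ * b⁻¹ ∈ A) ∧
        ((∀ a ∈ B, ∀ k : ℕ, 0 < k → a ^ k ∈ A → a ∈ A) ∨ ∀ a ∈ B, a ^ p ∈ A)) ∨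
      (A.relIndex B ≠ 0 ∧ ∀ a ∈ B, ∃ k : ℕ, a ^ p ^ k ∈ A))
    (hA : ∀ (m n : ℕ) (W : Fin m → Eqn A n), NonsingularF (ZMod p) W → SolvableOver W) :
    ∀ (m n : ℕ) (W : Fin m → Eqn B n), NonsingularF (ZMod p) W → SolvableOver W := by
  have hA' : ∀ (m n : ℕ) (W : Fin m → Eqn (A.subgroupOf B) n),
      NonsingularF (ZMod p) W → SolvableOver W :=
    KF_mono (Subgroup.subgroupOfEquivOfLe hle).toMonoidHom
      (Subgroup.subgroupOfEquivOfLe hle).injective hA
  rcases hfac with ⟨hab, htf | hp⟩ | ⟨hi, hP⟩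
  · apply modp_tf_quot p (A.subgroupOf B) _ _ hA'
    · intro a b
      rw [Subgroup.mem_subgroupOf]
      exact hab a a.2 b b.2
    · intro a k hk ha
      rw [Subgroup.mem_subgroupOf] at ha ⊢
      exact htf a a.2 k hk ha
  · apply modp_elem_quot p (A.subgroupOf B) _ _ hA'
    · intro a b
      rw [Subgroup.mem_subgroupOf]
      exact hab a a.2 b b.2
    · intro a
      rw [Subgroup.mem_subgroupOf]
      exact hp a a.2
  · apply modp_pgroup p (A.subgroupOf B).index (A.subgroupOf B) rfl hi _ hA'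
    intro x
    induction x using QuotientGroup.induction_on with
    | H a =>
      obtain ⟨k, hk⟩ := hP a a.2
      refine ⟨k, ?_⟩
      rw [← QuotientGroup.mk_pow]
      apply (QuotientGroup.eq_one_iff _).2
      rw [Subgroup.mem_subgroupOf]
      exact hk

/-- one step of a series, over the rationals -/
theorem step_rat (A B : Subgroup G) (hle : A ≤ B)
    (hn : (A.subgroupOf B).Normal)
    (hab : ∀ a ∈ B, ∀ b ∈ B, a * b * a⁻¹ * b⁻¹ ∈ A)
    (htf : ∀ a ∈ B, ∀ k : ℕ, 0 < k → a ^ k ∈ A → a ∈ A)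
    (hA : ∀ (m n : ℕ) (W : Fin m → Eqn A n), Nonsingular W → SolvableOver W) :
    ∀ (m n : ℕ) (W : Fin m → Eqn B n), Nonsingular W → SolvableOver W := by
  have hA' : ∀ (m n : ℕ) (W : Fin m → Eqn (A.subgroupOf B) n),
      Nonsingular W → SolvableOver W :=
    KF_mono (F := ℚ) (Subgroup.subgroupOfEquivOfLe hle).toMonoidHom
      (Subgroup.subgroupOfEquivOfLe hle).injective hA
  intro m n W hW
  apply howie_ext_quot (A.subgroupOf B) _ _ hA' W hW
  · intro a b
    rw [Subgroup.mem_subgroupOf]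
    exact hab a a.2 b b.2
  · intro a k hk ha
    rw [Subgroup.mem_subgroupOf] at ha ⊢
    exact htf a a.2 k hk ha

theorem series_modp (p : ℕ) [Fact p.Prime] (r : ℕ) (S : ℕ → Subgroup G)
    (htop : S r = ⊤) (hle : ∀ i < r, S i ≤ S (i + 1))
    (hn : ∀ i < r, ((S i).subgroupOf (S (i + 1))).Normal)
    (hfac : ∀ i < r, ((∀ a ∈ S (i + 1), ∀ b ∈ S (i + 1), a * b * a⁻¹ * b⁻¹ ∈ S i) ∧
        ((∀ a ∈ S (i + 1), ∀ k : ℕ, 0 < k → a ^ k ∈ S i → a ∈ S i) ∨
          ∀ a ∈ S (i + 1), a ^ p ∈ S i)) ∨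
      ((S i).relIndex (S (i + 1)) ≠ 0 ∧ ∀ a ∈ S (i + 1), ∃ k : ℕ, a ^ p ^ k ∈ S i))
    (h0 : ∀ (m n : ℕ) (W : Fin m → Eqn (S 0) n), NonsingularF (ZMod p) W → SolvableOver W) :
    ∀ (m n : ℕ) (W : Fin m → Eqn G n), NonsingularF (ZMod p) W → SolvableOver W := by
  have key : ∀ i, i ≤ r → ∀ (m n : ℕ) (W : Fin m → Eqn (S i) n),
      NonsingularF (ZMod p) W → SolvableOver W := by
    intro i
    induction i with
    | zero => intro _; exact h0
    | succ i ih =>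
      intro hi
      exact step_modp p (S i) (S (i + 1)) (hle i hi) (hn i hi) (hfac i hi) (ih (by omega))
  have hr := key r le_rfl
  rw [htop] at hr
  exact KF_mono ((Subgroup.topEquiv (G := G)).symm.toMonoidHom)
    ((Subgroup.topEquiv (G := G)).symm.injective) hr

theorem series_rat (r : ℕ) (S : ℕ → Subgroup G)
    (htop : S r = ⊤) (hle : ∀ i < r, S i ≤ S (i + 1))
    (hn : ∀ i < r, ((S i).subgroupOf (S (i + 1))).Normal)
    (hab : ∀ i < r, ∀ a ∈ S (i + 1), ∀ b ∈ S (i + 1), a * b * a⁻¹ * b⁻¹ ∈ S i)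
    (htf : ∀ i < r, ∀ a ∈ S (i + 1), ∀ k : ℕ, 0 < k → a ^ k ∈ S i → a ∈ S i)
    (h0 : ∀ (m n : ℕ) (W : Fin m → Eqn (S 0) n), Nonsingular W → SolvableOver W) :
    ∀ (m n : ℕ) (W : Fin m → Eqn G n), Nonsingular W → SolvableOver W := by
  have key : ∀ i, i ≤ r → ∀ (m n : ℕ) (W : Fin m → Eqn (S i) n),
      Nonsingular W → SolvableOver W := by
    intro i
    induction i with
    | zero => intro _; exact h0
    | succ i ih =>
      intro hi
      exact step_rat (S i) (S (i + 1)) (hle i hi) (hn i hi) (hab i hi) (htf i hi) (ih (by omega))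
  have hr := key r le_rfl
  rw [htop] at hr
  exact KF_mono (F := ℚ) ((Subgroup.topEquiv (G := G)).symm.toMonoidHom)
    ((Subgroup.topEquiv (G := G)).symm.injective) hr

end Vale.Agent.Lib.P174.Gen
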