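import Mathlib

namespace Vale.Agent.Lib.P174

universe u

variable {G : Type u} [Group G]

/-- an anti-palindromic product is trivial -/
lemma antiPal (γ : ℕ → G) : ∀ (n a : ℕ),
    ((List.range n).map (fun j => γ (a + j) * (γ (a + n - 1 - j))⁻¹)).prod = 1
  | 0, _ => by simp
  | 1, a => by simp
  | (n+2), a => by
    have ih := antiPal γ n (a+1)
    rw [List.range_succ, List.range_succ_eq_map]
    simp only [List.map_append, List.map_cons, List.map_map, List.map_nil, List.prod_append,
      List.prod_cons, List.prod_nil, mul_one]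
    have e : (List.map ((fun j => γ (a + j) * (γ (a + (n + 2) - 1 - j))⁻¹) ∘ Nat.succ) (List.range n))
        = (List.range n).map (fun j => γ (a + 1 + j) * (γ (a + 1 + n - 1 - j))⁻¹) := by
      apply List.map_congr_left
      intro j _
      simp only [Function.comp, Nat.succ_eq_add_one]
      have h1 : a + (j + 1) = a + 1 + j := by omega
      have h2 : a + (n + 2) - 1 - (j + 1) = a + 1 + n - 1 - j := by omega
      rw [h1, h2]
    rw [e, ih]
    have h3 : a + (n + 2) - 1 - 0 = a + (n + 1) := by omega
    have h4 : a + (n + 2) - 1 - (n + 1) = a := by omega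
    rw [h3, h4]
    simp

/-- the cyclic version -/
lemma cyclicPal (γ : ℕ → G) {k s : ℕ} (hs : s < k) :
    ((List.range k).map (fun j => γ j * (γ ((s + k - j) % k))⁻¹)).prod = 1 := by
  obtain ⟨d, rfl⟩ : ∃ d, k = (s + 1) + d := ⟨k - (s+1), by omega⟩
  rw [List.range_add, List.map_append, List.prod_append, List.map_map]
  have e1 : (List.range (s+1)).map (fun j => γ j * (γ ((s + (s + 1 + d) - j) % (s + 1 + d)))⁻¹)
      = (List.range (s+1)).map (fun j => γ (0 + j) * (γ (0 + (s+1) - 1 - j))⁻¹) := by
    apply List.map_congr_left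
    intro j hj
    have hj' : j < s + 1 := List.mem_range.mp hj
    have h1 : (s + (s + 1 + d) - j) % (s + 1 + d) = 0 + (s+1) - 1 - j := by
      have : s + (s + 1 + d) - j = (s - j) + (s + 1 + d) := by omega
      rw [this, Nat.add_mod_right, Nat.mod_eq_of_lt (by omega)]
      omega
    rw [h1]; simp only [zero_add]
  have e2 : (List.range d).map ((fun j => γ j * (γ ((s + (s + 1 + d) - j) % (s + 1 + d)))⁻¹) ∘
        (fun x => s + 1 + x))
      = (List.range d).map (fun j => γ (s + 1 + j) * (γ (s + 1 + d - 1 - j))⁻¹) := by
    apply List.map_congr_left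
    intro j hj
    have hj' : j < d := List.mem_range.mp hj
    simp only [Function.comp]
    have h1 : (s + (s + 1 + d) - (s + 1 + j)) % (s + 1 + d) = s + 1 + d - 1 - j := by
      rw [Nat.mod_eq_of_lt (by omega)]
      omega
    rw [h1]
  rw [e1, e2, antiPal, antiPal, one_mul]

end Vale.Agent.Lib.P174

namespace Vale.Agent.Lib.P174

universe u

variable {G : Type u} [Group G]

open RegularWreathProduct

/-- diagonal embedding into the regular wreath product -/
def diagHom (Q : Type) [Group Q] : G →* (G ≀ᵣ Q) where
  toFun g := ⟨fun _ => g, 1⟩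
  map_one' := rfl
  map_mul' a b := by
    ext
    · simp [RegularWreathProduct.mul_left]
    · simp

lemma diagHom_injective (Q : Type) [Group Q] : Function.Injective (diagHom (G := G) Q) := by
  intro a b h
  have := congrArg (fun w : G ≀ᵣ Q => w.left 1) h
  simpa [diagHom] using this

lemma prod_left (Q : Type) [Group Q] (f : Q → G) (σ : Q) : ∀ (M : List G) (q : Q),
    ((M.map (fun c => diagHom Q c * (⟨f, σ⟩ : G ≀ᵣ Q))).prod).left q
      = ((List.range M.length).map (fun j => M.getD j 1 * f ((σ ^ j)⁻¹ * q))).prod
  | [], q => by simp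
  | (c :: M), q => by
    rw [List.map_cons, List.prod_cons, RegularWreathProduct.mul_left, Pi.mul_apply,
      prod_left Q f σ M, List.length_cons, List.range_succ_eq_map, List.map_cons, List.prod_cons,
      List.map_map]
    congr 1
    · simp [diagHom, RegularWreathProduct.mul_left]
    · congr 1
      apply List.map_congr_left
      intro j _
      simp only [Function.comp, Nat.succ_eq_add_one, List.getD_cons_succ]
      congr 2
      simp [diagHom, pow_succ', mul_assoc]

lemma prod_right (Q : Type) [Group Q] (f : Q → G) (σ : Q) : ∀ (M : List G),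
    ((M.map (fun c => diagHom Q c * (⟨f, σ⟩ : G ≀ᵣ Q))).prod).right = σ ^ M.length
  | [] => by simp
  | (c :: M) => by
    rw [List.map_cons, List.prod_cons, RegularWreathProduct.mul_right, prod_right Q f σ M,
      List.length_cons, pow_succ']
    simp [diagHom]

/-- Levin's construction: a positive equation `c_0 x c_1 x ... c_{k-1} x = 1` has a solution in the
wreath product of `G` with a cyclic group of order `k`. -/
theorem levin (L : List G) (hL : L ≠ []) :
    ∃ (H : Type u) (_ : Group H) (φ : G →* H) (x : H),
      Function.Injective φ ∧ (L.map (fun c => φ c * x)).prod = 1 := by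
  obtain ⟨k, hk⟩ : ∃ k, k = L.length := ⟨_, rfl⟩
  have hk0 : k ≠ 0 := by
    rw [hk]; exact fun h => hL (List.length_eq_zero_iff.mp h)
  have : NeZero k := ⟨hk0⟩
  refine ⟨G ≀ᵣ (Multiplicative (ZMod k)), inferInstance, diagHom (Multiplicative (ZMod k)),
    ⟨fun r => (L.getD (Multiplicative.toAdd r).val 1)⁻¹, Multiplicative.ofAdd (1 : ZMod k)⟩,
    diagHom_injective _, ?_⟩
  ext q
  · rw [prod_left, RegularWreathProduct.one_left, Pi.one_apply]
    have hs : (Multiplicative.toAdd q).val < k := ZMod.val_lt _
    refine Eq.trans ?_ (cyclicPal (fun j => L.getD j 1) hs)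
    rw [← hk]
    congr 1
    apply List.map_congr_left
    intro j hj
    have hj' : j < k := List.mem_range.mp hj
    have h1 : Multiplicative.toAdd (((Multiplicative.ofAdd (1 : ZMod k)) ^ j)⁻¹ * q)
        = (((Multiplicative.toAdd q).val + k - j : ℕ) : ZMod k) := by
      have h2 : Multiplicative.toAdd (((Multiplicative.ofAdd (1 : ZMod k)) ^ j)⁻¹ * q)
          = - ((j : ZMod k)) + Multiplicative.toAdd q := by
        rw [toAdd_mul, toAdd_inv, toAdd_pow, toAdd_ofAdd]; simp
      rw [h2, Nat.cast_sub (by omega)]
      push_cast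
      rw [ZMod.natCast_zmod_val, ZMod.natCast_self]
      ring
    simp only [h1, ZMod.val_natCast]
  · rw [prod_right, RegularWreathProduct.one_right, ← hk]
    apply Multiplicative.toAdd.injective
    rw [toAdd_pow, toAdd_ofAdd, toAdd_one]; simp

end Vale.Agent.Lib.P174
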