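import Vale.Agent.Lib.P174.Triangular

namespace Vale.Agent.Lib.P174

universe u

variable {G : Type u} [Group G] {n : ℕ}

/-- exponent sum of `x_l` in `w` -/
def expo (w : Eqn G n) (l : Fin n) : ℤ := Multiplicative.toAdd (expHom G n w) l

@[simp] lemma expo_one (l : Fin n) : expo (1 : Eqn G n) l = 0 := by simp [expo]

@[simp] lemma expo_mul (a b : Eqn G n) (l : Fin n) : expo (a * b) l = expo a l + expo b l := by
  simp [expo]

@[simp] lemma expo_inv (a : Eqn G n) (l : Fin n) : expo a⁻¹ l = - expo a l := by
  simp [expo]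

@[simp] lemma expo_inl (g : G) (l : Fin n) : expo (Monoid.Coprod.inl g : Eqn G n) l = 0 := by
  simp [expo, expHom]

lemma expo_X (j l : Fin n) : expo (X j : Eqn G n) l = if l = j then 1 else 0 := by
  simp [expo, expHom, X, Pi.single_apply]

lemma expo_lower {i l : Fin n} (hl : i ≤ l) {c : Eqn G n} (hc : c ∈ lowerSub G i) :
    expo c l = 0 := by
  unfold lowerSub at hc
  induction hc using Subgroup.closure_induction with
  | mem y hy =>
    rcases hy with ⟨g, rfl⟩ | ⟨j, hj, rfl⟩
    · simp
    · rw [expo_X, if_neg]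
      intro h
      subst h
      exact absurd hj (not_lt.mpr hl)
  | one => simp
  | mul a b _ _ ha hb => simp [ha, hb]
  | inv a _ ha => simp [ha]

lemma expo_prod {i l : Fin n} (hl : i ≤ l) : ∀ (L : List (Eqn G n)), (∀ c ∈ L, c ∈ lowerSub G i) →
    expo ((L.map (fun c => c * X i)).prod) l = (L.length : ℤ) * (if l = i then 1 else 0)
  | [], _ => by simp
  | (c :: L), h => by
    rw [List.map_cons, List.prod_cons, expo_mul, expo_mul,
      expo_prod hl L (fun c hc => h c (List.mem_cons_of_mem _ hc)),
      expo_lower hl (h c List.mem_cons_self), expo_X, List.length_cons]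
    push_cast
    ring

theorem TriPos.nonsingular {W : Fin n → Eqn G n} (hW : TriPos W) : Nonsingular W := by
  unfold Nonsingular
  have htri : (expMatrix W).BlockTriangular OrderDual.toDual := by
    intro i l hil
    have hil' : i < l := hil
    obtain ⟨L, _, hLmem, hWi⟩ := hW i
    show expo (W i) l = 0
    rw [hWi, expo_prod hil'.le L hLmem, if_neg (ne_of_gt hil'), mul_zero]
  have hdet : (expMatrix W).det ≠ 0 := by
    rw [Matrix.det_of_isLowerTriangular _ htri]
    apply Finset.prod_ne_zero_iff.mpr
    intro i _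
    obtain ⟨L, hL0, hLmem, hWi⟩ := hW i
    show expo (W i) i ≠ 0
    rw [hWi, expo_prod le_rfl L hLmem, if_pos rfl, mul_one]
    have : L.length ≠ 0 := fun h => hL0 (List.length_eq_zero_iff.mp h)
    exact_mod_cast this
  have hunit : IsUnit ((expMatrix W).map (Int.cast : ℤ → ℚ)) := by
    rw [Matrix.isUnit_iff_isUnit_det, ← Int.cast_det]
    exact isUnit_iff_ne_zero.mpr (by exact_mod_cast hdet)
  rw [Matrix.rank_of_isUnit _ hunit, Fintype.card_fin]

end Vale.Agent.Lib.P174
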