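import Vale.Agent.Lib.P174.Defs
import Vale.Agent.Lib.P174.Levin

namespace Vale.Agent.Lib.P174

universe u

variable {G : Type u} [Group G] {n : ℕ}

/-- the subgroup of `G * F_n` generated by `G` and the unknowns `x_j`, `j < i` -/
def lowerSub (G : Type u) [Group G] {n : ℕ} (i : Fin n) : Subgroup (Eqn G n) :=
  Subgroup.closure (Set.range (Monoid.Coprod.inl : G → Eqn G n) ∪ {y | ∃ j : Fin n, j < i ∧ y = X j})

/-- triangular positive system: the `i`-th equation is `c_1 x_i c_2 x_i ... c_k x_i = 1` with `k ≥ 1`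
and with coefficients `c_s` in the subgroup generated by `G` and the earlier unknowns -/
def TriPos (W : Fin n → Eqn G n) : Prop :=
  ∀ i, ∃ L : List (Eqn G n), L ≠ [] ∧ (∀ c ∈ L, c ∈ lowerSub G i) ∧
    W i = (L.map (fun c => c * X i)).prod

@[simp] lemma ev_inl {H : Type u} [Group H] (φ : G →* H) (h : Fin n → H) (g : G) :
    ev φ h (Monoid.Coprod.inl g) = φ g := by simp [ev]

@[simp] lemma ev_X {H : Type u} [Group H] (φ : G →* H) (h : Fin n → H) (j : Fin n) :
    ev φ h (X j) = h j := by simp [ev, X]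

lemma ev_agree {H H' : Type u} [Group H] [Group H'] (φ : G →* H) (h : Fin n → H) (ψ : H →* H')
    (h' : Fin n → H') (i : Fin n) (hh : ∀ j, j < i → h' j = ψ (h j)) {c : Eqn G n}
    (hc : c ∈ lowerSub G i) : ev (ψ.comp φ) h' c = ψ (ev φ h c) := by
  have key : Set.EqOn (ev (ψ.comp φ) h') (ψ.comp (ev φ h))
      (Set.range (Monoid.Coprod.inl : G → Eqn G n) ∪ {y | ∃ j : Fin n, j < i ∧ y = X j}) := by
    rintro y (⟨g, rfl⟩ | ⟨j, hj, rfl⟩)
    · simp
    · simp [hh j hj]
  exact MonoidHom.eqOn_closure key hc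

lemma lowerSub_mono {i i' : Fin n} (h : i' ≤ i) : lowerSub G i' ≤ lowerSub G i := by
  apply Subgroup.closure_mono
  apply Set.union_subset_union_right
  rintro y ⟨j, hj, rfl⟩
  exact ⟨j, lt_of_lt_of_le hj h, rfl⟩

lemma X_mem_lowerSub {i j : Fin n} (h : j < i) : (X j : Eqn G n) ∈ lowerSub G i :=
  Subgroup.subset_closure (Or.inr ⟨j, h, rfl⟩)

lemma prod_mem_lowerSub {i i' : Fin n} (h : i' < i) (L : List (Eqn G n))
    (hL : ∀ c ∈ L, c ∈ lowerSub G i') : (L.map (fun c => c * X i')).prod ∈ lowerSub G i := by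
  apply Subgroup.list_prod_mem
  intro y hy
  obtain ⟨c, hc, rfl⟩ := List.mem_map.mp hy
  exact Subgroup.mul_mem _ (lowerSub_mono h.le (hL c hc)) (X_mem_lowerSub h)

theorem TriPos.solvable {W : Fin n → Eqn G n} (hW : TriPos W) : SolvableOver W := by
  have step : ∀ t : ℕ, t ≤ n → ∃ (H : Type u) (_ : Group H) (φ : G →* H) (h : Fin n → H),
      Function.Injective φ ∧ ∀ i : Fin n, i.val < t → ev φ h (W i) = 1 := by
    intro t
    induction t with
    | zero =>
      intro _
      exact ⟨G, inferInstance, MonoidHom.id G, fun _ => 1, Function.injective_id,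
        fun i hi => absurd hi (Nat.not_lt_zero _)⟩
    | succ t ih =>
      intro ht
      obtain ⟨H, _, φ, h, hφ, hsol⟩ := ih (by omega)
      let i : Fin n := ⟨t, by omega⟩
      obtain ⟨L, hL0, hLmem, hWi⟩ := hW i
      obtain ⟨H', _, ψ, x, hψ, hx⟩ := levin (L.map (ev φ h)) (by simpa using hL0)
      refine ⟨H', inferInstance, ψ.comp φ, Function.update (fun j => ψ (h j)) i x,
        hψ.comp hφ, ?_⟩
      have hup : ∀ j, j < i → Function.update (fun j => ψ (h j)) i x j = ψ (h j) := by
        intro j hj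
        rw [Function.update_of_ne (ne_of_lt hj)]
      intro i' hi'
      rcases Nat.lt_succ_iff_lt_or_eq.mp hi' with hlt | heq
      · obtain ⟨L', _, hL'mem, hWi'⟩ := hW i'
        have hmem : W i' ∈ lowerSub G i := by
          rw [hWi']; exact prod_mem_lowerSub (Fin.lt_def.mpr hlt) L' hL'mem
        rw [ev_agree φ h ψ _ i hup hmem, hsol i' hlt, map_one]
      · have hii : i' = i := Fin.ext heq
        rw [hii, hWi, map_list_prod, List.map_map]
        rw [List.map_map] at hx
        rw [← hx]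
        congr 1
        apply List.map_congr_left
        intro c hc
        simp only [Function.comp, map_mul, ev_X, Function.update_self]
        rw [ev_agree φ h ψ _ i hup (hLmem c hc)]
  obtain ⟨H, _, φ, h, hφ, hsol⟩ := step n le_rfl
  exact ⟨H, inferInstance, φ, h, hφ, fun i => hsol i i.isLt⟩

end Vale.Agent.Lib.P174
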